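import Vale.Agent.P139.H311.KeyUP
import Vale.Agent.P139.H694.S2Glue
import Vale.Agent.P139.H700.RMode2
import Vale.Agent.P139.H745.ExtS
import Vale.Agent.P139.H312.I3

/-!
Block S2: final assembly. `UP`, the exterior description `ExtJ` and the certificate at the hard
wall give `S2Out` (bounded spectral parameter, bounded angular momentum).
-/

noncomputable section

open scoped ComplexConjugate ContDiff Topology
open MeasureTheory Set Complex Filter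

namespace Vale.Agent.P139.H311

open BU KU H700 H901

theorem keyStmt_of_UP {d : ℕ} (hd : 3 ≤ d) {B : Set (ℝ × ℝ)} {m0 : ℕ} {w R : ℕ → ℝ}
    {q : ℕ → ℝ → ℂ} (U : UP d B m0 w R q) {b : ℝ} (hb : ∀ m, m0 ≤ m → R m + 1 ≤ b) (l : ℕ)
    (L0 : ℝ) : H694.KeyStmt d w R q b l L0 := by
  obtain ⟨Cs, hCs, H⟩ := key_UP hd U hb l L0
  refine ⟨Cs, hCs, fun ε hε => ?_⟩
  obtain ⟨η0, hη0, H1⟩ := H ε hε
  refine ⟨η0, hη0, fun η hη hle => ?_⟩
  obtain ⟨m1, ε', hε', H2⟩ := H1 η hη hle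
  refine ⟨m1, ε', hε', fun m hm K hK lam lam0 h1 h2 h3 h4 F G φ γ c aF aG aφ aγ s0 s1 α β α0 β0
    c0 c1 => ?_⟩
  obtain ⟨⟨n1, n2⟩, ⟨k1, k2⟩, k3, k4⟩ := H2 m hm K hK lam lam0 h1 h2 h3 h4 F G φ γ c aF aG aφ aγ
    s0 s1 α β α0 β0 c0 c1
  exact ⟨n1, n2, k1, k2, k3, k4⟩

/-- **Block S2.** -/
theorem s2Out_of_ext {d : ℕ} (hd : 3 ≤ d) {B : Set (ℝ × ℝ)} {m0 : ℕ} {w R : ℕ → ℝ}
    {q : ℕ → ℝ → ℂ} (U : UP d B m0 w R q) (hB : IsClosed B)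
    (hcert : ∀ w R : ℝ, (w, R) ∈ B → 0 < w → 0 < R → Qinf' d w R = 0 → H694.CertGood d w R)
    {K : ℕ → ℕ} (hK : ∀ m, 2 ≤ K m) {b : ℝ} (hb : ∀ m, m0 ≤ m → R m + 1 ≤ b)
    (hExt : Ext d K w R q b) : S2Out d w q := by
  refine H694.s2Out_of_glue U hB hcert hK hb hExt (fun l L0 => keyStmt_of_UP hd U hb l L0) ?_
  intro m hm l lam0 hs
  obtain ⟨h1, h2, h3, h4⟩ := UP_modes U (by omega) hm hs
  exact ⟨h1 _, h2 _, h3, h4⟩

/-- **Block S2** from the exterior description in the `J` normalisation. -/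
theorem s2Out_of_extJ {d : ℕ} (hd : 3 ≤ d) {B : Set (ℝ × ℝ)} {m0 : ℕ} {w R : ℕ → ℝ}
    {q : ℕ → ℝ → ℂ} (U : UP d B m0 w R q) (hB : IsClosed B)
    (hcert : ∀ w R : ℝ, (w, R) ∈ B → 0 < w → 0 < R → Qinf' d w R = 0 → H694.CertGood d w R)
    {K0 : ℕ} (hK0 : 1 ≤ K0) (hExt : ExtJ d K0 w R q) : S2Out d w q := by
  obtain ⟨R1, hR1, R2, hR⟩ := U.Rbd
  have hb : ∀ m, m0 ≤ m → R m + 1 ≤ R2 + 1 := fun m hm => by linarith [(hR m hm).2]
  refine s2Out_of_ext hd U hB hcert (K := fun _ => max K0 2) (fun _ => le_max_right _ _) hb ?_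
  exact H745.UP.ext_of_extJ U hK0 ⟨0, fun m _ => le_max_left _ _⟩ hb hExt

lemma symVal_iff {l : ℕ} {lam : ℂ} : H312.SymVal l lam ↔ SymV l lam := Iff.rfl

/-- The certificate of the hard wall in the form needed here. -/
theorem certGood_of_evGood {w R : ℝ} (h : H312.EvGood w R) : H694.CertGood 13 w R :=
  ⟨fun l lam h1 h2 => h.ne l lam h1 h2, fun l lam h1 => h.simple l lam h1⟩

/-- **Block S2** in dimension `13`. -/
theorem s2Out_13 {B : Set (ℝ × ℝ)} {m0 : ℕ} {w R : ℕ → ℝ} {q : ℕ → ℝ → ℂ}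
    (U : UP 13 B m0 w R q) (hB : IsClosed B)
    (hcert : ∀ w R : ℝ, (w, R) ∈ B → 0 < w → 0 < R → Qinf' 13 w R = 0 → H312.EvGood w R)
    {K0 : ℕ} (hK0 : 1 ≤ K0) (hExt : ExtJ 13 K0 w R q) : S2Out 13 w q :=
  s2Out_of_extJ (by norm_num) U hB
    (fun w R h1 h2 h3 h4 => certGood_of_evGood (hcert w R h1 h2 h3 h4)) hK0 hExt

end Vale.Agent.P139.H311
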