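import Vale.Agent.P139.H311.CoreF

/-!
Block S2: from the inner estimate to the matching relations of one radial pair.
-/

noncomputable section

open scoped ComplexConjugate
open MeasureTheory Set Complex

namespace Vale.Agent.P139.H311

/-- Scaling of the gauged system by a constant. -/
lemma GSys.scale {n : ℕ} {R2 q : ℝ} {P V w δ : ℝ → ℝ} {μ : ℂ} {s t s1 t1 S0 T0 : ℝ → ℂ}
    (h : GSys n R2 q P V w δ μ s t s1 t1 S0 T0) (c : ℂ) :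
    GSys n R2 q P V w δ μ (fun r => c * s r) (fun r => c * t r) (fun r => c * s1 r)
      (fun r => c * t1 r) (fun r => c * S0 r) (fun r => c * T0 r) where
  n_pos := h.n_pos
  R2_pos := h.R2_pos
  cP := h.cP
  cV := h.cV
  cw := h.cw
  cδ := h.cδ
  cs := continuousOn_const.mul h.cs
  ct := continuousOn_const.mul h.ct
  cs1 := continuousOn_const.mul h.cs1
  ct1 := continuousOn_const.mul h.ct1
  cS0 := continuousOn_const.mul h.cS0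
  cT0 := continuousOn_const.mul h.cT0
  ds := fun r hr => (h.ds r hr).const_mul c
  dt := fun r hr => (h.dt r hr).const_mul c
  dw := h.dw
  es := by
    intro r hr
    have h1 := (h.es r hr).const_mul c
    refine (h1.congr_of_eventuallyEq ?_).congr_deriv ?_
    · filter_upwards with x
      ring
    · unfold dil; ring
  et := by
    intro r hr
    have h1 := (h.et r hr).const_mul c
    refine (h1.congr_of_eventuallyEq ?_).congr_deriv ?_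
    · filter_upwards with x
      ring
    · unfold dil; ring

/-- Output of the gauge transformation. -/
structure GOut (n : ℕ) (R2 q : ℝ) (P V wt δ : ℝ → ℝ) (μ : ℂ) (z : ℝ → ℂ) (ψ : ℝ → ℝ)
    (Fh Gh Fh1 Gh1 e1 e2 s t s1 t1 S0 T0 : ℝ → ℂ) : Prop where
  sys : GSys n R2 q P V wt δ μ s t s1 t1 S0 T0
  zn : ∀ r ∈ Icc 0 R2, ‖z r‖ = 1
  hs : ∀ r ∈ Icc 0 R2, s r = conj (z r) * Fh r + z r * Gh r
  ht : ∀ r ∈ Icc 0 R2, t r = conj (z r) * Fh r - z r * Gh r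
  hs1 : s1 R2 = conj (z R2) * (Fh1 R2 - I * ψ R2 * Fh R2) + z R2 * (Gh1 R2 + I * ψ R2 * Gh R2)
  ht1 : t1 R2 = conj (z R2) * (Fh1 R2 - I * ψ R2 * Fh R2) - z R2 * (Gh1 R2 + I * ψ R2 * Gh R2)
  hS0 : ∀ r ∈ Icc 0 R2, S0 r = -I * (e1 r * conj (z r) - e2 r * z r)
  hT0 : ∀ r ∈ Icc 0 R2, T0 r = -I * (e1 r * conj (z r) + e2 r * z r)

/-- Bounds for the coefficients of the gauged system. -/
structure CoefBd (R2 : ℝ) (P V w δ : ℝ → ℝ) (μ : ℂ) (C c0 ε1 η : ℝ) : Prop where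
  C_pos : 0 < C
  c0_pos : 0 < c0
  ε1_nonneg : 0 ≤ ε1
  η_pos : 0 < η
  η6 : 6 * η ≤ R2
  hV : ∀ r ∈ Icc 0 R2, |V r| ≤ C
  hP0 : ∀ r ∈ Icc 0 R2, 0 ≤ P r
  hPC : ∀ r ∈ Icc 0 R2, P r ≤ C
  hw : ∀ r ∈ Icc 0 R2, |r * w r| ≤ C
  hδ : ∀ r ∈ Icc 0 R2, |δ r| ≤ C
  hμ : ‖μ‖ ≤ C
  hPc : ∀ r ∈ Icc 0 (R2 - 2 * η), c0 ≤ P r
  hVP : ∀ r ∈ Icc 0 (R2 - 2 * η), |V r + P r| ≤ ε1

/-- Constant of the inner estimate as a property. -/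
def InnerConst (n : ℕ) (C c0 Rm RM M κ0 q0 : ℝ) : Prop :=
  ∀ (R2 q : ℝ) (P V w δ : ℝ → ℝ) (μ : ℂ)
      (s t s1 t1 S0 T0 : ℝ → ℂ) (ε1 η : ℝ), Rm ≤ R2 → R2 ≤ RM → ε1 ≤ κ0 → η ≤ κ0 → q0 ≤ q →
      InnerHyp n R2 q P V w δ μ s t s1 t1 S0 T0 C c0 ε1 η →
      ‖s R2‖ ^ 2 ≤ M * (η + 1 / (η * q)) ∧ ‖t1 R2‖ ^ 2 ≤ M * (ε1 + (η + 1 / (η * q))) ∧
      (∫ r in (0 : ℝ)..R2, r ^ n * ‖s r‖ ^ 2) ≤ M * (η + 1 / (η * q)) ∧
      (∫ r in (0 : ℝ)..R2, r ^ n * ‖t r‖ ^ 2) ≤ M ∧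
      (∫ r in (0 : ℝ)..R2, r ^ n * ‖s1 r‖ ^ 2) ≤ M ∧
      (∫ r in (0 : ℝ)..R2, r ^ n * ‖t1 r‖ ^ 2) ≤ M

lemma exists_innerConst (n : ℕ) {C c0 Rm : ℝ} (RM : ℝ) (hC : 0 < C) (hc0 : 0 < c0)
    (hRm : 0 < Rm) : ∃ M > 0, ∃ κ0 > 0, ∃ q0 > 0, InnerConst n C c0 Rm RM M κ0 q0 :=
  InnerHyp.inner_bound n hC hc0 hRm

/-- Matching estimate for one pair, in terms of the size `A` of its data at `R2`. -/
theorem match_bound {n : ℕ} {C c0 Rm RM M κ0 q0 : ℝ} (hI : InnerConst n C c0 Rm RM M κ0 q0)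
    {R2 q : ℝ} {P V wt δ : ℝ → ℝ} {μ : ℂ} {z : ℝ → ℂ} {ψ : ℝ → ℝ}
    {Fh Gh Fh1 Gh1 e1 e2 s t s1 t1 S0 T0 : ℝ → ℂ} {ε1 η A : ℝ}
    (h : GOut n R2 q P V wt δ μ z ψ Fh Gh Fh1 Gh1 e1 e2 s t s1 t1 S0 T0)
    (hB : CoefBd R2 P V wt δ μ C c0 ε1 η)
    (h1 : Rm ≤ R2) (h2 : R2 ≤ RM) (h3 : ε1 ≤ κ0) (h4 : η ≤ κ0) (h5 : q0 ≤ q) (hq0 : 0 < q0)
    (hA : 0 < A) (hF : ‖Fh R2‖ ≤ A) (hG : ‖Gh R2‖ ≤ A) (hF1 : ‖Fh1 R2‖ ≤ A) (hG1 : ‖Gh1 R2‖ ≤ A)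
    (hψ : |ψ R2| ≤ 1)
    (hS : ∫ r in (0 : ℝ)..R2, r ^ n * ‖S0 r‖ ^ 2 ≤ A ^ 2)
    (hT : ∫ r in (0 : ℝ)..R2, r ^ n * ‖T0 r‖ ^ 2 ≤ (ε1 * A) ^ 2) :
    ‖s R2‖ ^ 2 ≤ 16 * A ^ 2 * (M * (η + 1 / (η * q))) ∧
    ‖t1 R2‖ ^ 2 ≤ 16 * A ^ 2 * (M * (ε1 + (η + 1 / (η * q)))) ∧
    (∫ r in (0 : ℝ)..R2, r ^ n * ‖s r‖ ^ 2) ≤ 16 * A ^ 2 * (M * (η + 1 / (η * q))) ∧
    (∫ r in (0 : ℝ)..R2, r ^ n * ‖t r‖ ^ 2) ≤ 16 * A ^ 2 * M := by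
  have hR2 := h.sys.R2_pos
  have hmem : R2 ∈ Icc 0 R2 := ⟨hR2.le, le_rfl⟩
  set k : ℝ := 1 / (4 * A) with hk
  have hkpos : 0 < k := by positivity
  have hkA : k * (4 * A) = 1 := by rw [hk]; field_simp
  have hnk : ‖(k : ℂ)‖ = k := by
    rw [Complex.norm_real, Real.norm_eq_abs, abs_of_pos hkpos]
  have hzR := h.zn R2 hmem
  have hcz : ‖conj (z R2)‖ = 1 := by rw [Complex.norm_conj]; exact hzR
  have bs : ‖s R2‖ ≤ 2 * A := by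
    rw [h.hs R2 hmem]
    refine (norm_add_le _ _).trans ?_
    rw [norm_mul, norm_mul, hcz, hzR]
    linarith
  have bt : ‖t R2‖ ≤ 2 * A := by
    rw [h.ht R2 hmem]
    refine (norm_sub_le _ _).trans ?_
    rw [norm_mul, norm_mul, hcz, hzR]
    linarith
  have b1 : ‖Fh1 R2 - I * ψ R2 * Fh R2‖ ≤ 2 * A := by
    refine (norm_sub_le _ _).trans ?_
    rw [norm_mul, norm_mul, Complex.norm_I, one_mul, Complex.norm_real, Real.norm_eq_abs]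
    have : |ψ R2| * ‖Fh R2‖ ≤ 1 * A := mul_le_mul hψ hF (norm_nonneg _) (by norm_num)
    linarith
  have b2 : ‖Gh1 R2 + I * ψ R2 * Gh R2‖ ≤ 2 * A := by
    refine (norm_add_le _ _).trans ?_
    rw [norm_mul, norm_mul, Complex.norm_I, one_mul, Complex.norm_real, Real.norm_eq_abs]
    have : |ψ R2| * ‖Gh R2‖ ≤ 1 * A := mul_le_mul hψ hG (norm_nonneg _) (by norm_num)
    linarith
  have bs1 : ‖s1 R2‖ ≤ 4 * A := by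
    rw [h.hs1]
    refine (norm_add_le _ _).trans ?_
    rw [norm_mul, norm_mul, hcz, hzR]
    linarith
  have bt1 : ‖t1 R2‖ ≤ 4 * A := by
    rw [h.ht1]
    refine (norm_sub_le _ _).trans ?_
    rw [norm_mul, norm_mul, hcz, hzR]
    linarith
  have hscale : ∀ {x : ℂ}, ‖x‖ ≤ 4 * A → ‖(k : ℂ) * x‖ ≤ 1 := by
    intro x hx
    rw [norm_mul, hnk]
    calc k * ‖x‖ ≤ k * (4 * A) := mul_le_mul_of_nonneg_left hx hkpos.le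
      _ = 1 := hkA
  have hint : ∀ f : ℝ → ℂ, ∫ r in (0 : ℝ)..R2, r ^ n * ‖(k : ℂ) * f r‖ ^ 2 =
      k ^ 2 * ∫ r in (0 : ℝ)..R2, r ^ n * ‖f r‖ ^ 2 := by
    intro f
    rw [← intervalIntegral.integral_const_mul]
    congr 1
    funext r
    rw [norm_mul, hnk]
    ring
  have hkk : k ^ 2 * (16 * A ^ 2) = 1 := by
    have : k ^ 2 * (16 * A ^ 2) = (k * (4 * A)) ^ 2 := by ring
    rw [this, hkA, one_pow]
  have hyp : InnerHyp n R2 q P V wt δ μ (fun r => (k : ℂ) * s r) (fun r => (k : ℂ) * t r)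
      (fun r => (k : ℂ) * s1 r) (fun r => (k : ℂ) * t1 r) (fun r => (k : ℂ) * S0 r)
      (fun r => (k : ℂ) * T0 r) C c0 ε1 η := by
    refine ⟨h.sys.scale (k : ℂ), by linarith, hB.C_pos, hB.c0_pos, hB.ε1_nonneg, hB.η_pos, hB.η6,
      hB.hV, hB.hP0, hB.hPC, hB.hw, hB.hδ, hB.hμ, hB.hPc, hB.hVP, hscale (by linarith),
      hscale (by linarith), hscale bs1, hscale bt1, ?_, ?_⟩
    · rw [hint]
      have e1 : k ^ 2 * (∫ r in (0 : ℝ)..R2, r ^ n * ‖S0 r‖ ^ 2) ≤ k ^ 2 * A ^ 2 :=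
        mul_le_mul_of_nonneg_left hS (by positivity)
      have e2 : k ^ 2 * A ^ 2 ≤ 1 := by
        have : 0 ≤ k ^ 2 * A ^ 2 := by positivity
        nlinarith
      linarith
    · rw [hint]
      have e1 : k ^ 2 * (∫ r in (0 : ℝ)..R2, r ^ n * ‖T0 r‖ ^ 2) ≤ k ^ 2 * (ε1 * A) ^ 2 :=
        mul_le_mul_of_nonneg_left hT (by positivity)
      have e2 : k ^ 2 * (ε1 * A) ^ 2 ≤ ε1 ^ 2 := by
        have e3 : k ^ 2 * A ^ 2 ≤ 1 := by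
          have : 0 ≤ k ^ 2 * A ^ 2 := by positivity
          nlinarith
        calc k ^ 2 * (ε1 * A) ^ 2 = ε1 ^ 2 * (k ^ 2 * A ^ 2) := by ring
          _ ≤ ε1 ^ 2 * 1 := mul_le_mul_of_nonneg_left e3 (sq_nonneg _)
          _ = ε1 ^ 2 := mul_one _
      linarith
  obtain ⟨r1, r2, r3, r4, -, -⟩ := hI R2 q P V wt δ μ _ _ _ _ _ _ ε1 η h1 h2 h3 h4 h5 hyp
  rw [hint] at r3 r4
  simp only [norm_mul, hnk, mul_pow] at r1 r2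
  have back : ∀ {x y : ℝ}, k ^ 2 * x ≤ y → x ≤ 16 * A ^ 2 * y := by
    intro x y hxy
    have e1 := mul_le_mul_of_nonneg_left hxy (show (0 : ℝ) ≤ 16 * A ^ 2 by positivity)
    calc x = 16 * A ^ 2 * (k ^ 2 * x) := by
          rw [← mul_assoc, mul_comm (16 * A ^ 2), hkk, one_mul]
      _ ≤ _ := e1
  exact ⟨back r1, back r2, back r3, back r4⟩

/-- From `s`, `t'` small to the matching relations for `Fh`, `Gh`. -/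
lemma match_rel {n : ℕ} {R2 q : ℝ} {P V wt δ : ℝ → ℝ} {μ : ℂ} {z : ℝ → ℂ} {ψ : ℝ → ℝ}
    {Fh Gh Fh1 Gh1 e1 e2 s t s1 t1 S0 T0 : ℝ → ℂ} {A ε : ℝ}
    (h : GOut n R2 q P V wt δ μ z ψ Fh Gh Fh1 Gh1 e1 e2 s t s1 t1 S0 T0)
    (hF : ‖Fh R2‖ ≤ A) (hG : ‖Gh R2‖ ≤ A) (hF1 : ‖Fh1 R2‖ ≤ A) (hG1 : ‖Gh1 R2‖ ≤ A)
    (hz : ‖1 - z R2‖ ≤ ε) (hψ : |ψ R2| ≤ ε) (hε : 0 ≤ ε) :
    ‖Fh R2 + Gh R2‖ ≤ ‖s R2‖ + 2 * ε * A ∧ ‖Fh1 R2 - Gh1 R2‖ ≤ ‖t1 R2‖ + 4 * ε * A := by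
  have hR2 := h.sys.R2_pos
  have hmem : R2 ∈ Icc 0 R2 := ⟨hR2.le, le_rfl⟩
  have hcz : ‖1 - conj (z R2)‖ ≤ ε := by
    have : 1 - conj (z R2) = conj (1 - z R2) := by simp
    rw [this, Complex.norm_conj]; exact hz
  have hzR := h.zn R2 hmem
  have hczn : ‖conj (z R2)‖ = 1 := by rw [Complex.norm_conj]; exact hzR
  have m1 : ∀ {x y : ℂ}, ‖x‖ ≤ ε → ‖y‖ ≤ A → ‖x * y‖ ≤ ε * A := by
    intro x y hx hy
    rw [norm_mul]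
    exact mul_le_mul hx hy (norm_nonneg _) hε
  constructor
  · have e : Fh R2 + Gh R2 = s R2 + (1 - conj (z R2)) * Fh R2 + (1 - z R2) * Gh R2 := by
      rw [h.hs R2 hmem]; ring
    rw [e]
    have g1 := norm_add_le (s R2 + (1 - conj (z R2)) * Fh R2) ((1 - z R2) * Gh R2)
    have g2 := norm_add_le (s R2) ((1 - conj (z R2)) * Fh R2)
    have g3 := m1 hcz hF
    have g4 := m1 hz hG
    linarith
  · have e : Fh1 R2 - Gh1 R2 = t1 R2 + (1 - conj (z R2)) * Fh1 R2 - (1 - z R2) * Gh1 R2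
        + I * ψ R2 * (conj (z R2) * Fh R2) + I * ψ R2 * (z R2 * Gh R2) := by
      rw [h.ht1]; ring
    rw [e]
    have g1 := norm_add_le (t1 R2 + (1 - conj (z R2)) * Fh1 R2 - (1 - z R2) * Gh1 R2
        + I * ψ R2 * (conj (z R2) * Fh R2)) (I * ψ R2 * (z R2 * Gh R2))
    have g2 := norm_add_le (t1 R2 + (1 - conj (z R2)) * Fh1 R2 - (1 - z R2) * Gh1 R2)
        (I * ψ R2 * (conj (z R2) * Fh R2))
    have g3 := norm_sub_le (t1 R2 + (1 - conj (z R2)) * Fh1 R2) ((1 - z R2) * Gh1 R2)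
    have g4 := norm_add_le (t1 R2) ((1 - conj (z R2)) * Fh1 R2)
    have g5 := m1 hcz hF1
    have g6 := m1 hz hG1
    have hIψ : ‖I * (ψ R2 : ℂ)‖ ≤ ε := by
      rw [norm_mul, Complex.norm_I, one_mul, Complex.norm_real, Real.norm_eq_abs]; exact hψ
    have g7 : ‖I * ψ R2 * (conj (z R2) * Fh R2)‖ ≤ ε * A := by
      apply m1 hIψ
      rw [norm_mul, hczn, one_mul]; exact hF
    have g8 : ‖I * ψ R2 * (z R2 * Gh R2)‖ ≤ ε * A := by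
      apply m1 hIψ
      rw [norm_mul, hzR, one_mul]; exact hG
    linarith

/-- Parallelogram identity for the gauge. -/
lemma gauge_norm_sq {z x y : ℂ} (hz : ‖z‖ = 1) :
    ‖conj z * x + z * y‖ ^ 2 + ‖conj z * x - z * y‖ ^ 2 = 2 * (‖x‖ ^ 2 + ‖y‖ ^ 2) := by
  have h := parallelogram_law_with_norm ℝ (conj z * x) (z * y)
  have h1 : ‖conj z * x‖ = ‖x‖ := by rw [norm_mul, Complex.norm_conj, hz, one_mul]
  have h2 : ‖z * y‖ = ‖y‖ := by rw [norm_mul, hz, one_mul]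
  rw [h1, h2] at h
  nlinarith

end Vale.Agent.P139.H311
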