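import Vale.Agent.P139.H311.Key2
import Vale.Agent.P139.H741.Out

/-!
Block S2: the key estimate (K) for a family of profiles, and its combination with the exterior
description.
-/

noncomputable section

open scoped ComplexConjugate ContDiff Topology
open MeasureTheory Set Complex Filter

namespace Vale.Agent.P139.H311

open H741 BU KU

theorem coefFam_of_UP {d : ℕ} (hd : 1 ≤ d) {B : Set (ℝ × ℝ)} {m0 : ℕ} {w R : ℕ → ℝ}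
    {q : ℕ → ℝ → ℂ} (U : UP d B m0 w R q) (l : ℕ) (L0 : ℝ) : CoefFam d l w R q L0 := by
  obtain ⟨C, hC, c0, hc0, ηs, hηs, H⟩ := UPg_coef U (n := d + 2 * l - 1) (l := l) (by omega) L0
  exact ⟨C, hC, c0, hc0, ηs, hηs, H⟩

theorem phaseFam_of_UP {d : ℕ} {B : Set (ℝ × ℝ)} {m0 : ℕ} {w R : ℕ → ℝ}
    {q : ℕ → ℝ → ℂ} (U : UP d B m0 w R q) : PhaseFam R q := by
  intro ε hε
  obtain ⟨η0, hη0, m1, H⟩ := UPg_phase U ε hε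
  exact ⟨η0, hη0, fun η hη hle => ⟨m1, fun m hm h h1 h2 => H η hη hle m hm h h1 h2⟩⟩

/-- **Key estimate (K)** for a family of profiles. -/
theorem key_UP {d : ℕ} (hd : 3 ≤ d) {B : Set (ℝ × ℝ)} {m0 : ℕ} {w R : ℕ → ℝ} {q : ℕ → ℝ → ℂ}
    (U : UP d B m0 w R q) {b : ℝ} (hb : ∀ m, m0 ≤ m → R m + 1 ≤ b) (l : ℕ) (L0 : ℝ) :
    ∃ Cs > 0, ∀ ε > 0, ∃ η0 > 0, ∀ η : ℝ, 0 < η → η ≤ η0 → ∃ m1 : ℕ, ∃ ε' > 0, ∀ m, m1 ≤ m →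
      ∀ K : ℕ, 2 ≤ K → KeyOut d m l K (w m) (R m + η) b Cs ε ε' L0 (q m) :=
  key hd U hb l (coefFam_of_UP (by omega) U l L0) (phaseFam_of_UP U)

/-- Conclusion of the key estimate together with the exterior description. -/
def KeyExt (d m l K : ℕ) (w0 R2 b Cs ε ε' L0 : ℝ) (q : ℝ → ℂ) : Prop :=
  ∀ lam lam0 : ℂ, 0 ≤ lam.re → 0 ≤ lam0.re → ‖lam‖ ≤ L0 → ‖lam0‖ ≤ L0 →
    ∀ (F G φ γ : ℝ → ℂ) (c : ℂ), RadAdm K F → RadAdm K G → RadAdm K φ → RadAdm K γ →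
    RSol d m l w0 q lam0 0 φ γ φ γ → RSol d m l w0 q lam c F G φ γ →
    ∃ α β α0 β0 : ℂ,
    ExtClose d l w0 (lam0 + aa m) (lam0 + aa m) α0 β0 0 0 0 φ γ (Icc R2 b)
      (ε' * nrm d b φ γ) ∧
    ExtClose d l w0 (lam + aa m) (lam0 + aa m) α β α0 β0 c F G (Icc R2 b)
      (ε' * (nrm d b F G + ‖c‖ * nrm d b φ γ)) ∧
    (nrm d b φ γ ≤ Cs * (‖α0‖ + ‖β0‖) ∧
      nrm d b F G ≤ Cs * (‖α‖ + ‖β‖ + ‖c‖ * (‖α0‖ + ‖β0‖))) ∧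
    (‖extF d l w0 (lam + aa m) (lam0 + aa m) α α0 c R2 +
        extG d l w0 (lam + aa m) (lam0 + aa m) β β0 c R2‖ ≤
      ε * (‖α‖ + ‖β‖ + ‖c‖ * (‖α0‖ + ‖β0‖)) ∧
    ‖extF' d l w0 (lam + aa m) (lam0 + aa m) α α0 c R2 -
        extG' d l w0 (lam + aa m) (lam0 + aa m) β β0 c R2‖ ≤
      ε * (‖α‖ + ‖β‖ + ‖c‖ * (‖α0‖ + ‖β0‖))) ∧
    (‖α0 * F0 d l w0 (lam0 + aa m) R2 + β0 * F0s d l w0 (lam0 + aa m) R2‖ ≤
      ε * (‖α0‖ + ‖β0‖) ∧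
    ‖α0 * F0' d l w0 (lam0 + aa m) R2 - β0 * F0s' d l w0 (lam0 + aa m) R2‖ ≤
      ε * (‖α0‖ + ‖β0‖))

/-- Key estimate and exterior description together. Here the closeness parameter can be taken
as small as one likes. -/
theorem key_ext {d : ℕ} (hd : 3 ≤ d) {B : Set (ℝ × ℝ)} {m0 : ℕ} {w R : ℕ → ℝ} {q : ℕ → ℝ → ℂ}
    (U : UP d B m0 w R q) {b : ℝ} (hb : ∀ m, m0 ≤ m → R m + 1 ≤ b) {K : ℕ → ℕ}
    (hK : ∀ m, m0 ≤ m → 2 ≤ K m) (hE : Ext d K w R q b) (l : ℕ) (L0 : ℝ) :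
    ∃ Cs > 0, ∀ ε > 0, ∃ η0 > 0, ∀ η : ℝ, 0 < η → η ≤ η0 → ∀ δ > 0, ∃ m1 : ℕ, ∃ ε' > 0, ε' ≤ δ ∧
      ∀ m, m1 ≤ m → KeyExt d m l (K m) (w m) (R m + η) b Cs ε ε' L0 (q m) := by
  obtain ⟨Cs, hCs, H⟩ := key_UP hd U hb l L0
  refine ⟨Cs, hCs, fun ε hε => ?_⟩
  obtain ⟨η0, hη0, H1⟩ := H ε hε
  refine ⟨η0, hη0, fun η hη hle δ hδ => ?_⟩
  obtain ⟨m1, ε1, hε1, H2⟩ := H1 η hη hle
  obtain ⟨m2, H3⟩ := hE l L0 η (min ε1 δ) hη (lt_min hε1 hδ)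
  refine ⟨max (max m1 m2) m0, min ε1 δ, lt_min hε1 hδ, min_le_right _ _, ?_⟩
  intro m hm lam lam0 h1 h2 h3 h4 F G φ γ c hF hG hφ hγ hs0 hs
  have hm1 : m1 ≤ m := ((le_max_left _ _).trans (le_max_left _ _)).trans hm
  have hm2 : m2 ≤ m := ((le_max_right _ _).trans (le_max_left _ _)).trans hm
  have hm0 : m0 ≤ m := (le_max_right _ _).trans hm
  obtain ⟨α, β, α0, β0, c1, c2⟩ := H3 m hm2 lam lam0 h1 h2 h3 h4 F G φ γ c hF hG hφ hγ hs0 hs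
  have n1 : 0 ≤ nrm d b φ γ := Real.sqrt_nonneg _
  have n2 : 0 ≤ nrm d b F G := Real.sqrt_nonneg _
  have d1 : min ε1 δ * nrm d b φ γ ≤ ε1 * nrm d b φ γ :=
    mul_le_mul_of_nonneg_right (min_le_left _ _) n1
  have d2 : min ε1 δ * (nrm d b F G + ‖c‖ * nrm d b φ γ) ≤
      ε1 * (nrm d b F G + ‖c‖ * nrm d b φ γ) :=
    mul_le_mul_of_nonneg_right (min_le_left _ _) (by positivity)
  have c1' : ExtClose d l (w m) (lam0 + aa m) (lam0 + aa m) α0 β0 0 0 0 φ γ (Icc (R m + η) b)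
      (ε1 * nrm d b φ γ) :=
    ⟨fun r hr => (c1.f0 r hr).trans d1, fun r hr => (c1.f1 r hr).trans d1,
      fun r hr => (c1.g0 r hr).trans d1, fun r hr => (c1.g1 r hr).trans d1⟩
  have c2' : ExtClose d l (w m) (lam + aa m) (lam0 + aa m) α β α0 β0 c F G (Icc (R m + η) b)
      (ε1 * (nrm d b F G + ‖c‖ * nrm d b φ γ)) :=
    ⟨fun r hr => (c2.f0 r hr).trans d2, fun r hr => (c2.f1 r hr).trans d2,
      fun r hr => (c2.g0 r hr).trans d2, fun r hr => (c2.g1 r hr).trans d2⟩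
  obtain ⟨k1, k2, k3⟩ := H2 m hm1 (K m) (hK m hm0) lam lam0 h1 h2 h3 h4 F G φ γ c hF hG hφ hγ
    hs0 hs α β α0 β0 c1' c2'
  exact ⟨α, β, α0, β0, c1, c2, k1, k2, k3⟩

end Vale.Agent.P139.H311
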