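import Vale.Agent.P139.H311.S2Spec

/-!
Block S2: uniform bounds of the exterior model on compact parameter sets.
-/

noncomputable section

open scoped ComplexConjugate ContDiff Topology
open Complex Filter Set MeasureTheory

namespace Vale.Agent.P139.H311

open BU KU

/-- The compact parameter set. -/
def parK (W L ρ b : ℝ) : Set (ℝ × ℂ × ℝ) :=
  {p | |p.1| ≤ W ∧ (-(1 / 2) ≤ p.2.1.re ∧ ‖p.2.1‖ ≤ L) ∧ ρ ≤ p.2.2 ∧ p.2.2 ≤ b}

lemma isCompact_parK (W L ρ b : ℝ) : IsCompact (parK W L ρ b) := by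
  have h : parK W L ρ b = (Icc (-W) W) ×ˢ (({z : ℂ | -(1 / 2) ≤ z.re} ∩ Metric.closedBall 0 L) ×ˢ
      (Icc ρ b)) := by
    ext ⟨w, z, r⟩
    simp only [parK, Set.mem_ofPred_eq, mem_prod, mem_Icc, abs_le, mem_inter_iff,
      Metric.mem_closedBall, dist_zero_right]
  rw [h]
  refine isCompact_Icc.prod (IsCompact.prod ?_ isCompact_Icc)
  refine (isCompact_closedBall (0 : ℂ) L).inter_left ?_
  exact isClosed_le continuous_const Complex.continuous_re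

lemma bound_aux {f : ℝ → ℂ → ℝ → ℂ} (l : ℕ)
    (hf : ∀ p : ℝ × ℂ × ℝ, -1 < p.2.1.re + l / 2 → 0 < p.2.2 →
      ContinuousAt (fun p : ℝ × ℂ × ℝ => f p.1 p.2.1 p.2.2) p) (W L : ℝ) {ρ : ℝ} (b : ℝ)
    (hρ : 0 < ρ) :
    ∃ C > 0, ∀ (w : ℝ) (z : ℂ) (r : ℝ), |w| ≤ W → -(1 / 2) ≤ z.re → ‖z‖ ≤ L → ρ ≤ r → r ≤ b →
      ‖f w z r‖ ≤ C := by
  have hc : ContinuousOn (fun p : ℝ × ℂ × ℝ => f p.1 p.2.1 p.2.2) (parK W L ρ b) := by
    intro p hp
    apply ContinuousAt.continuousWithinAt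
    apply hf p
    · have := hp.2.1.1
      have hl : (0 : ℝ) ≤ (l : ℝ) / 2 := by positivity
      linarith
    · exact lt_of_lt_of_le hρ hp.2.2.1
  obtain ⟨C, hC⟩ := (isCompact_parK W L ρ b).exists_bound_of_continuousOn hc
  refine ⟨max C 1, lt_max_of_lt_right one_pos, ?_⟩
  intro w z r h1 h2 h3 h4 h5
  exact (hC (w, z, r) ⟨h1, ⟨h2, h3⟩, h4, h5⟩).trans (le_max_left _ _)

/-- Bound of the divided difference from a bound of the function. -/
lemma dslope_bound {f : ℂ → ℂ} {C L : ℝ} (hf : ∀ z : ℂ, -1 < z.re → DifferentiableAt ℂ f z)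
    (hb : ∀ z : ℂ, -(1 / 2) ≤ z.re → ‖z‖ ≤ L + 1 → ‖f z‖ ≤ C) {x x0 : ℂ}
    (hx : 0 ≤ x.re) (hx0 : 0 ≤ x0.re) (hxL : ‖x‖ ≤ L) (hx0L : ‖x0‖ ≤ L) :
    ‖dslope f x0 x‖ ≤ 2 * C := by
  have hder : ∀ z ∈ ({z : ℂ | 0 ≤ z.re} ∩ Metric.closedBall 0 L), ‖deriv f z‖ ≤ 2 * C := by
    intro z hz
    have hz1 : 0 ≤ z.re := hz.1
    have hz2 : ‖z‖ ≤ L := by simpa using hz.2
    have hre : ∀ y ∈ Metric.closedBall z (1 / 2 : ℝ), -(1 / 2) ≤ y.re := by
      intro y hy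
      have h1 : |(y - z).re| ≤ ‖y - z‖ := Complex.abs_re_le_norm _
      have h2 : ‖y - z‖ ≤ 1 / 2 := by simpa [dist_eq_norm] using hy
      have h3 := (abs_le.mp (h1.trans h2)).1
      simp only [Complex.sub_re] at h3
      linarith
    have h := Complex.norm_deriv_le_of_forall_mem_sphere_norm_le (c := z) (R := 1 / 2) (C := C)
      (f := f) (by norm_num) ?_ ?_
    · have e : C / (1 / 2) = 2 * C := by ring
      rwa [e] at h
    · refine DifferentiableOn.diffContOnCl_ball (U := {y : ℂ | -1 < y.re}) ?_ ?_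
      · intro y hy
        exact (hf y hy).differentiableWithinAt
      · intro y hy
        have := hre y hy
        show -1 < y.re
        linarith
    · intro y hy
      have hy' : y ∈ Metric.closedBall z (1 / 2 : ℝ) := Metric.sphere_subset_closedBall hy
      refine hb y (hre y hy') ?_
      have h2 : ‖y - z‖ ≤ 1 / 2 := by simpa [dist_eq_norm] using hy'
      calc ‖y‖ = ‖z + (y - z)‖ := by congr 1; ring
        _ ≤ ‖z‖ + ‖y - z‖ := norm_add_le _ _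
        _ ≤ L + 1 := by linarith
  have hconv : Convex ℝ ({z : ℂ | 0 ≤ z.re} ∩ Metric.closedBall 0 L) := by
    refine Convex.inter ?_ (convex_closedBall _ _)
    exact convex_halfSpace_re_ge 0
  have hmem : x ∈ ({z : ℂ | 0 ≤ z.re} ∩ Metric.closedBall 0 L) := ⟨hx, by simpa using hxL⟩
  have hmem0 : x0 ∈ ({z : ℂ | 0 ≤ z.re} ∩ Metric.closedBall 0 L) := ⟨hx0, by simpa using hx0L⟩
  by_cases hxx : x = x0
  · rw [hxx, dslope_same]
    exact hder x0 hmem0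
  · rw [dslope_of_ne _ hxx, slope_def_field, norm_div]
    have hne : 0 < ‖x - x0‖ := norm_pos_iff.mpr (sub_ne_zero.mpr hxx)
    rw [div_le_iff₀ hne]
    have := Convex.norm_image_sub_le_of_norm_deriv_le (𝕜 := ℂ) (f := f) (C := 2 * C)
      (s := ({z : ℂ | 0 ≤ z.re} ∩ Metric.closedBall 0 L)) (x := x0) (y := x)
      (fun z hz => hf z (by have : 0 ≤ z.re := hz.1; linarith)) hder hconv hmem0 hmem
    exact this

/-- All slow solutions and divided differences are bounded on compact parameter sets. -/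
theorem slow_bounds (d l : ℕ) (W L : ℝ) {ρ : ℝ} (b : ℝ) (hρ : 0 < ρ) :
    ∃ C > 0, ∀ (w : ℝ) (x x0 : ℂ) (r : ℝ), |w| ≤ W → 0 ≤ x.re → ‖x‖ ≤ L → 0 ≤ x0.re →
      ‖x0‖ ≤ L → ρ ≤ r → r ≤ b →
      (‖F0 d l w x r‖ ≤ C ∧ ‖F0' d l w x r‖ ≤ C ∧ ‖F0s d l w x r‖ ≤ C ∧ ‖F0s' d l w x r‖ ≤ C) ∧
      (‖dslope (fun y => F0 d l w y r) x0 x‖ ≤ C ∧ ‖dslope (fun y => F0' d l w y r) x0 x‖ ≤ C ∧
       ‖dslope (fun y => F0s d l w y r) x0 x‖ ≤ C ∧ ‖dslope (fun y => F0s' d l w y r) x0 x‖ ≤ C) := by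
  obtain ⟨C1, hC1, h1⟩ := bound_aux (f := fun w z r => F0 d l w z r) l
    (fun p h hr => continuousAt_F0 (d := d) (l := l) h hr continuousAt_fst
      (continuousAt_fst.comp continuousAt_snd) (continuousAt_snd.comp continuousAt_snd)) W (L + 1) b hρ
  obtain ⟨C2, hC2, h2⟩ := bound_aux (f := fun w z r => F0' d l w z r) l
    (fun p h hr => continuousAt_F0' (d := d) (l := l) h hr continuousAt_fst
      (continuousAt_fst.comp continuousAt_snd) (continuousAt_snd.comp continuousAt_snd)) W (L + 1) b hρ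
  obtain ⟨C3, hC3, h3⟩ := bound_aux (f := fun w z r => F0s d l w z r) l
    (fun p h hr => continuousAt_F0s (d := d) (l := l) h hr continuousAt_fst
      (continuousAt_fst.comp continuousAt_snd) (continuousAt_snd.comp continuousAt_snd)) W (L + 1) b hρ
  obtain ⟨C4, hC4, h4⟩ := bound_aux (f := fun w z r => F0s' d l w z r) l
    (fun p h hr => continuousAt_F0s' (d := d) (l := l) h hr continuousAt_fst
      (continuousAt_fst.comp continuousAt_snd) (continuousAt_snd.comp continuousAt_snd)) W (L + 1) b hρ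
  have hl : (0 : ℝ) ≤ (l : ℝ) / 2 := by positivity
  refine ⟨2 * (C1 + C2 + C3 + C4), by positivity, ?_⟩
  intro w x x0 r hw hx hxL hx0 hx0L hr1 hr2
  have hr : 0 < r := lt_of_lt_of_le hρ hr1
  refine ⟨⟨?_, ?_, ?_, ?_⟩, ⟨?_, ?_, ?_, ?_⟩⟩
  · exact (h1 w x r hw (by linarith) (by linarith) hr1 hr2).trans (by linarith)
  · exact (h2 w x r hw (by linarith) (by linarith) hr1 hr2).trans (by linarith)
  · exact (h3 w x r hw (by linarith) (by linarith) hr1 hr2).trans (by linarith)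
  · exact (h4 w x r hw (by linarith) (by linarith) hr1 hr2).trans (by linarith)
  · exact (dslope_bound (fun z hz => differentiableAt_F0 (by linarith) hr)
      (fun z hz hzL => h1 w z r hw hz hzL hr1 hr2) hx hx0 hxL hx0L).trans (by linarith)
  · exact (dslope_bound (fun z hz => differentiableAt_F0' (by linarith) hr)
      (fun z hz hzL => h2 w z r hw hz hzL hr1 hr2) hx hx0 hxL hx0L).trans (by linarith)
  · exact (dslope_bound (fun z hz => differentiableAt_F0s (by linarith) hr)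
      (fun z hz hzL => h3 w z r hw hz hzL hr1 hr2) hx hx0 hxL hx0L).trans (by linarith)
  · exact (dslope_bound (fun z hz => differentiableAt_F0s' (by linarith) hr)
      (fun z hz hzL => h4 w z r hw hz hzL hr1 hr2) hx hx0 hxL hx0L).trans (by linarith)

/-- Bounds of the exterior model. -/
theorem ext_bounds (d l : ℕ) (W L : ℝ) {ρ : ℝ} (b : ℝ) (hρ : 0 < ρ) :
    ∃ C > 0, ∀ (w : ℝ) (x x0 : ℂ) (r : ℝ), |w| ≤ W → 0 ≤ x.re → ‖x‖ ≤ L → 0 ≤ x0.re →
      ‖x0‖ ≤ L → ρ ≤ r → r ≤ b → ∀ α α0 c : ℂ, ‖α0‖ ≤ 1 →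
      ‖extF d l w x x0 α α0 c r‖ ≤ C * (‖α‖ + ‖c‖) ∧ ‖extF' d l w x x0 α α0 c r‖ ≤ C * (‖α‖ + ‖c‖) ∧
      ‖extG d l w x x0 α α0 c r‖ ≤ C * (‖α‖ + ‖c‖) ∧ ‖extG' d l w x x0 α α0 c r‖ ≤ C * (‖α‖ + ‖c‖) := by
  obtain ⟨C, hC, h⟩ := slow_bounds d l W L b hρ
  refine ⟨C, hC, ?_⟩
  intro w x x0 r h1 h2 h3 h4 h5 h6 h7 α α0 c hα0
  obtain ⟨⟨a1, a2, a3, a4⟩, ⟨b1, b2, b3, b4⟩⟩ := h w x x0 r h1 h2 h3 h4 h5 h6 h7
  have key : ∀ u v : ℂ, ‖u‖ ≤ C → ‖v‖ ≤ C → ‖α * u + c * α0 * v‖ ≤ C * (‖α‖ + ‖c‖) := by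
    intro u v hu hv
    have e1 : ‖α * u‖ ≤ ‖α‖ * C := by
      rw [norm_mul]; exact mul_le_mul_of_nonneg_left hu (norm_nonneg _)
    have e2 : ‖c * α0 * v‖ ≤ ‖c‖ * C := by
      rw [norm_mul, norm_mul]
      calc ‖c‖ * ‖α0‖ * ‖v‖ ≤ ‖c‖ * 1 * C := by
            apply mul_le_mul _ hv (norm_nonneg _) (by positivity)
            exact mul_le_mul_of_nonneg_left hα0 (norm_nonneg _)
        _ = ‖c‖ * C := by ring
    calc _ ≤ _ := norm_add_le _ _
      _ ≤ _ := by linarith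
  exact ⟨key _ _ a1 b1, key _ _ a2 b2, key _ _ a3 b3, key _ _ a4 b4⟩

end Vale.Agent.P139.H311
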