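import Mathlib

/-!
Block (B), part 1: elementary one dimensional inequalities with weight `r ^ n`.
-/

open MeasureTheory Set Complex

namespace Vale.Agent.P139.H311

/-- Cauchy-Schwarz for a nonnegative continuous function on an interval. -/
lemma sq_integral_le {a b : ℝ} (hab : a ≤ b) {f : ℝ → ℝ} (hf : ContinuousOn f (Icc a b)) :
    (∫ x in a..b, f x) ^ 2 ≤ (b - a) * ∫ x in a..b, (f x) ^ 2 := by
  have hf' : IntervalIntegrable f volume a b := by
    rw [← uIcc_of_le hab] at hf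
    exact hf.intervalIntegrable
  have hf2 : IntervalIntegrable (fun x => (f x) ^ 2) volume a b := by
    rw [← uIcc_of_le hab] at hf
    exact (hf.pow 2).intervalIntegrable
  set J := ∫ x in a..b, f x
  set K := ∫ x in a..b, (f x) ^ 2
  have key : ∀ x : ℝ, 0 ≤ K * (x * x) + (-2 * J) * x + (b - a) := by
    intro x
    have h0 : 0 ≤ ∫ y in a..b, (x * f y - 1) ^ 2 := by
      apply intervalIntegral.integral_nonneg hab
      intro y _
      positivity
    have h1 : ∫ y in a..b, (x * f y - 1) ^ 2 = K * (x * x) + (-2 * J) * x + (b - a) := by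
      have : (fun y => (x * f y - 1) ^ 2) = fun y => (x * x) * (f y) ^ 2 + ((-2 * x) * f y + 1) := by
        funext y; ring
      rw [this, intervalIntegral.integral_add, intervalIntegral.integral_add]
      · rw [intervalIntegral.integral_const_mul, intervalIntegral.integral_const_mul]
        simp
        ring
      · exact hf'.const_mul _
      · exact intervalIntegrable_const
      · exact hf2.const_mul _
      · exact (hf'.const_mul _).add intervalIntegrable_const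
    linarith [h1 ▸ h0]
  have := discrim_le_zero key
  unfold discrim at this
  nlinarith

/-- Pointwise bound: values at two points of `[a,b]` differ by at most the `H^1` norm. -/
lemma norm_sq_le_of_deriv {a b : ℝ} {u u1 : ℝ → ℂ}
    (hu : ContinuousOn u (Icc a b)) (hu1 : ContinuousOn u1 (Icc a b))
    (hd : ∀ r ∈ Ioo a b, HasDerivAt u (u1 r) r) {x y : ℝ} (hx : x ∈ Icc a b) (hy : y ∈ Icc a b) :
    ‖u x‖ ^ 2 ≤ 2 * ‖u y‖ ^ 2 + 2 * (b - a) * ∫ r in a..b, ‖u1 r‖ ^ 2 := by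
  have hab : a ≤ b := hx.1.trans hx.2
  -- general estimate for ordered pairs
  have gen : ∀ p q : ℝ, p ∈ Icc a b → q ∈ Icc a b → p ≤ q →
      ‖u q - u p‖ ^ 2 ≤ (b - a) * ∫ r in a..b, ‖u1 r‖ ^ 2 := by
    intro p q hp hq hpq
    have hsub : Icc p q ⊆ Icc a b := Icc_subset_Icc hp.1 hq.2
    have hI : IntervalIntegrable u1 volume p q := by
      have := hu1.mono hsub
      rw [← uIcc_of_le hpq] at this
      exact this.intervalIntegrable
    have h1 : ∫ r in p..q, u1 r = u q - u p := by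
      apply intervalIntegral.integral_eq_sub_of_hasDerivAt_of_le hpq (hu.mono hsub)
      · intro r hr
        exact hd r ⟨lt_of_le_of_lt hp.1 hr.1, lt_of_lt_of_le hr.2 hq.2⟩
      · exact hI
    rw [← h1]
    have h2 : ‖∫ r in p..q, u1 r‖ ≤ ∫ r in p..q, ‖u1 r‖ :=
      intervalIntegral.norm_integral_le_integral_norm hpq
    have h3 : (∫ r in p..q, ‖u1 r‖) ^ 2 ≤ (q - p) * ∫ r in p..q, ‖u1 r‖ ^ 2 :=
      sq_integral_le hpq ((hu1.mono hsub).norm)
    have h4 : ∫ r in p..q, ‖u1 r‖ ^ 2 ≤ ∫ r in a..b, ‖u1 r‖ ^ 2 := by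
      apply intervalIntegral.integral_mono_interval hp.1 hpq hq.2
      · filter_upwards with r
        positivity
      · have : ContinuousOn (fun r => ‖u1 r‖ ^ 2) (uIcc a b) := by
          rw [uIcc_of_le hab]
          exact hu1.norm.pow 2
        exact this.intervalIntegrable
    have h5 : 0 ≤ ∫ r in p..q, ‖u1 r‖ ^ 2 := by
      apply intervalIntegral.integral_nonneg hpq
      intro y _
      positivity
    calc ‖∫ r in p..q, u1 r‖ ^ 2 ≤ (∫ r in p..q, ‖u1 r‖) ^ 2 := by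
          apply pow_le_pow_left₀ (norm_nonneg _) h2
      _ ≤ (q - p) * ∫ r in p..q, ‖u1 r‖ ^ 2 := h3
      _ ≤ (b - a) * ∫ r in a..b, ‖u1 r‖ ^ 2 := by
          apply mul_le_mul _ h4 h5
          · linarith
          · linarith [hp.1, hq.2]
  have hdiff : ‖u x - u y‖ ^ 2 ≤ (b - a) * ∫ r in a..b, ‖u1 r‖ ^ 2 := by
    rcases le_total x y with h | h
    · have := gen x y hx hy h
      rwa [norm_sub_rev] at this
    · exact gen y x hy hx h
  have htri : ‖u x‖ ≤ ‖u y‖ + ‖u x - u y‖ := by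
    calc ‖u x‖ = ‖u y + (u x - u y)‖ := by congr 1; ring
      _ ≤ _ := norm_add_le _ _
  have h0 := norm_nonneg (u x)
  have h1 := norm_nonneg (u y)
  have h2 := norm_nonneg (u x - u y)
  nlinarith [sq_nonneg (‖u y‖ - ‖u x - u y‖), mul_self_le_mul_self h0 htri]

/-- Hardy type inequality with weight `r ^ n`. -/
lemma hardy {n : ℕ} {R : ℝ} (hR : 0 < R) {t t1 : ℝ → ℂ}
    (ht : ContinuousOn t (Icc 0 R)) (ht1 : ContinuousOn t1 (Icc 0 R))
    (hd : ∀ r ∈ Ioo 0 R, HasDerivAt t (t1 r) r) :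
    ∫ r in (0 : ℝ)..R, r ^ n * ‖t r‖ ^ 2 ≤
      2 / (n + 1) * R ^ (n + 1) * ‖t R‖ ^ 2 +
        4 * R ^ 2 / (n + 1) ^ 2 * ∫ r in (0 : ℝ)..R, r ^ n * ‖t1 r‖ ^ 2 := by
  have hn : (0 : ℝ) < (n : ℝ) + 1 := by positivity
  have hc1 : ContinuousOn (fun r => r ^ n * ‖t r‖ ^ 2) (Icc 0 R) :=
    (continuousOn_id.pow n).mul (ht.norm.pow 2)
  have hc2 : ContinuousOn (fun r => r ^ n * ‖t1 r‖ ^ 2) (Icc 0 R) :=
    (continuousOn_id.pow n).mul (ht1.norm.pow 2)
  have hc3 : ContinuousOn (fun r => r ^ (n + 1) * (2 * (t1 r * (starRingEnd ℂ) (t r)).re)) (Icc 0 R) := by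
    apply (continuousOn_id.pow (n + 1)).mul
    apply continuousOn_const.mul
    exact Complex.continuous_re.comp_continuousOn (ht1.mul (Complex.continuous_conj.comp_continuousOn ht))
  have hc4 : ContinuousOn (fun r => ((n : ℝ) + 1) * (r ^ n * ‖t r‖ ^ 2)) (Icc 0 R) :=
    continuousOn_const.mul hc1
  have hderiv : ∀ r ∈ Ioo 0 R, HasDerivAt (fun x => x ^ (n + 1) * ‖t x‖ ^ 2)
      (((n : ℝ) + 1) * (r ^ n * ‖t r‖ ^ 2) + r ^ (n + 1) * (2 * (t1 r * (starRingEnd ℂ) (t r)).re)) r := by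
    intro r hr
    have h1 : HasDerivAt (fun x : ℝ => x ^ (n + 1)) (((n + 1 : ℕ) : ℝ) * r ^ n) r := by
      simpa using hasDerivAt_pow (n + 1) r
    have h2 : HasDerivAt (fun x => ‖t x‖ ^ 2) (2 * (t1 r * (starRingEnd ℂ) (t r)).re) r := by
      have := (hd r hr).norm_sq
      convert this using 1
      rw [real_inner_eq_re_inner ℂ]
      simp [RCLike.inner_apply]
    have h12 := h1.mul h2
    have he : (((n : ℝ) + 1) * (r ^ n * ‖t r‖ ^ 2) + r ^ (n + 1) * (2 * (t1 r * (starRingEnd ℂ) (t r)).re)) =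
        (((n + 1 : ℕ) : ℝ) * r ^ n) * ‖t r‖ ^ 2 + r ^ (n + 1) * (2 * (t1 r * (starRingEnd ℂ) (t r)).re) := by
      push_cast; ring
    rw [he]
    exact h12
  have hftc : ∫ r in (0 : ℝ)..R, (((n : ℝ) + 1) * (r ^ n * ‖t r‖ ^ 2) +
      r ^ (n + 1) * (2 * (t1 r * (starRingEnd ℂ) (t r)).re)) = R ^ (n + 1) * ‖t R‖ ^ 2 := by
    rw [intervalIntegral.integral_eq_sub_of_hasDerivAt_of_le hR.le _ hderiv]
    · simp
    · have : ContinuousOn (fun r => ((n : ℝ) + 1) * (r ^ n * ‖t r‖ ^ 2) +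
          r ^ (n + 1) * (2 * (t1 r * (starRingEnd ℂ) (t r)).re)) (uIcc 0 R) := by
        rw [uIcc_of_le hR.le]
        exact hc4.add hc3
      exact this.intervalIntegrable
    · exact (continuousOn_id.pow (n + 1)).mul (ht.norm.pow 2)
  have hint : ∀ {f : ℝ → ℝ}, ContinuousOn f (Icc 0 R) → IntervalIntegrable f volume 0 R := by
    intro f hf
    have : ContinuousOn f (uIcc 0 R) := by rwa [uIcc_of_le hR.le]
    exact this.intervalIntegrable
  -- pointwise lower bound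
  have hpt : ∀ r ∈ Icc 0 R, ((n : ℝ) + 1) / 2 * (r ^ n * ‖t r‖ ^ 2) -
      2 * R ^ 2 / ((n : ℝ) + 1) * (r ^ n * ‖t1 r‖ ^ 2) ≤
      ((n : ℝ) + 1) * (r ^ n * ‖t r‖ ^ 2) + r ^ (n + 1) * (2 * (t1 r * (starRingEnd ℂ) (t r)).re) := by
    intro r hr
    have hre : -(‖t1 r‖ * ‖t r‖) ≤ (t1 r * (starRingEnd ℂ) (t r)).re := by
      have := Complex.abs_re_le_norm (t1 r * (starRingEnd ℂ) (t r))
      rw [norm_mul, Complex.norm_conj] at this
      linarith [neg_abs_le (t1 r * (starRingEnd ℂ) (t r)).re]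
    have hrn : 0 ≤ r ^ n := pow_nonneg hr.1 n
    have h1 : r ^ (n + 1) * (2 * (t1 r * (starRingEnd ℂ) (t r)).re) ≥
        - (r ^ n * (2 * R * (‖t1 r‖ * ‖t r‖))) := by
      have h2 : r ^ (n + 1) * (2 * (t1 r * (starRingEnd ℂ) (t r)).re) ≥
          r ^ (n + 1) * (2 * (-(‖t1 r‖ * ‖t r‖))) := by
        apply mul_le_mul_of_nonneg_left _ (pow_nonneg hr.1 _)
        linarith
      have h3 : r ^ (n + 1) * (2 * (-(‖t1 r‖ * ‖t r‖))) ≥ - (r ^ n * (2 * R * (‖t1 r‖ * ‖t r‖))) := by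
        rw [pow_succ]
        have : 0 ≤ r ^ n * (2 * (‖t1 r‖ * ‖t r‖)) * (R - r) := by
          apply mul_nonneg (by positivity)
          linarith [hr.2]
        nlinarith
      linarith
    have h4 : 2 * R * (‖t1 r‖ * ‖t r‖) ≤ ((n : ℝ) + 1) / 2 * ‖t r‖ ^ 2 + 2 * R ^ 2 / ((n : ℝ) + 1) * ‖t1 r‖ ^ 2 := by
      have h5 : 0 ≤ (((n : ℝ) + 1) * ‖t r‖ - 2 * R * ‖t1 r‖) ^ 2 / (2 * ((n : ℝ) + 1)) := by positivity
      have h6 : (((n : ℝ) + 1) * ‖t r‖ - 2 * R * ‖t1 r‖) ^ 2 / (2 * ((n : ℝ) + 1)) =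
          ((n : ℝ) + 1) / 2 * ‖t r‖ ^ 2 + 2 * R ^ 2 / ((n : ℝ) + 1) * ‖t1 r‖ ^ 2 - 2 * R * (‖t1 r‖ * ‖t r‖) := by
        field_simp
        ring
      linarith
    have h7 := mul_le_mul_of_nonneg_left h4 hrn
    nlinarith
  have hmono : ∫ r in (0 : ℝ)..R, (((n : ℝ) + 1) / 2 * (r ^ n * ‖t r‖ ^ 2) -
      2 * R ^ 2 / ((n : ℝ) + 1) * (r ^ n * ‖t1 r‖ ^ 2)) ≤ R ^ (n + 1) * ‖t R‖ ^ 2 := by
    rw [← hftc]
    apply intervalIntegral.integral_mono_on hR.le _ _ hpt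
    · exact ((hint hc1).const_mul _).sub ((hint hc2).const_mul _)
    · exact (hint (hc4.add hc3))
  rw [intervalIntegral.integral_sub ((hint hc1).const_mul _) ((hint hc2).const_mul _),
    intervalIntegral.integral_const_mul, intervalIntegral.integral_const_mul] at hmono
  set A := ∫ r in (0 : ℝ)..R, r ^ n * ‖t r‖ ^ 2
  set B := ∫ r in (0 : ℝ)..R, r ^ n * ‖t1 r‖ ^ 2
  have h8 : A ≤ 2 / ((n : ℝ) + 1) * (R ^ (n + 1) * ‖t R‖ ^ 2 + 2 * R ^ 2 / ((n : ℝ) + 1) * B) := by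
    have h9 : ((n : ℝ) + 1) / 2 * A ≤ R ^ (n + 1) * ‖t R‖ ^ 2 + 2 * R ^ 2 / ((n : ℝ) + 1) * B := by linarith
    have h10 : A = 2 / ((n : ℝ) + 1) * (((n : ℝ) + 1) / 2 * A) := by field_simp
    rw [h10]
    apply mul_le_mul_of_nonneg_left h9 (by positivity)
  calc A ≤ _ := h8
    _ = _ := by field_simp; ring

end Vale.Agent.P139.H311
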