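import Vale.Agent.P139.H311.CoreA

/-!
Block (B), part 2: the inner energy estimate for the gauged radial system.
-/

open MeasureTheory Set Complex

namespace Vale.Agent.P139.H311

/-- Skew-adjoint dilation operator `D u = r w u' + delta u`. -/
noncomputable def dil (w δ : ℝ → ℝ) (u u1 : ℝ → ℂ) (r : ℝ) : ℂ :=
  ((r * w r : ℝ) : ℂ) * u1 r + (δ r : ℂ) * u r

/-- The gauged radial system on `(0, R2)` with weight `r ^ n` (`n = d + 2 l - 1`). -/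
structure GSys (n : ℕ) (R2 q : ℝ) (P V w δ : ℝ → ℝ) (μ : ℂ)
    (s t s1 t1 S0 T0 : ℝ → ℂ) : Prop where
  n_pos : 1 ≤ n
  R2_pos : 0 < R2
  cP : ContinuousOn P (Icc 0 R2)
  cV : ContinuousOn V (Icc 0 R2)
  cw : ContinuousOn w (Icc 0 R2)
  cδ : ContinuousOn δ (Icc 0 R2)
  cs : ContinuousOn s (Icc 0 R2)
  ct : ContinuousOn t (Icc 0 R2)
  cs1 : ContinuousOn s1 (Icc 0 R2)
  ct1 : ContinuousOn t1 (Icc 0 R2)
  cS0 : ContinuousOn S0 (Icc 0 R2)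
  cT0 : ContinuousOn T0 (Icc 0 R2)
  ds : ∀ r ∈ Ioo 0 R2, HasDerivAt s (s1 r) r
  dt : ∀ r ∈ Ioo 0 R2, HasDerivAt t (t1 r) r
  dw : ∀ r ∈ Ioo 0 R2, HasDerivAt (fun x => x ^ (n + 1) * w x) (r ^ n * (2 * δ r)) r
  es : ∀ r ∈ Ioo 0 R2, HasDerivAt (fun x : ℝ => ((x ^ n : ℝ) : ℂ) * s1 x)
    (((r ^ n : ℝ) : ℂ) * (((V r + q * P r : ℝ) : ℂ) * s r - I * (dil w δ t t1 r + μ * t r) + S0 r)) r
  et : ∀ r ∈ Ioo 0 R2, HasDerivAt (fun x : ℝ => ((x ^ n : ℝ) : ℂ) * t1 x)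
    (((r ^ n : ℝ) : ℂ) * (((V r + P r : ℝ) : ℂ) * t r - I * (dil w δ s s1 r + μ * s r) + T0 r)) r

namespace GSys

variable {n : ℕ} {R2 q : ℝ} {P V w δ : ℝ → ℝ} {μ : ℂ} {s t s1 t1 S0 T0 : ℝ → ℂ}

/-- The energy. -/
noncomputable def En (n : ℕ) (w : ℝ → ℝ) (s t s1 t1 : ℝ → ℂ) (r : ℝ) : ℝ :=
  ((((r ^ n : ℝ) : ℂ) * s1 r) * (starRingEnd ℂ) (s r) + (((r ^ n : ℝ) : ℂ) * t1 r) * (starRingEnd ℂ) (t r)).re
    + (r ^ (n + 1) * w r) * (I * (s r * (starRingEnd ℂ) (t r))).re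

/-- Density of the derivative of the energy. -/
noncomputable def eDen (q : ℝ) (P V w δ : ℝ → ℝ) (μ : ℂ) (s t s1 t1 S0 T0 : ℝ → ℂ) (r : ℝ) : ℝ :=
  ‖s1 r‖ ^ 2 + ‖t1 r‖ ^ 2 + (V r + q * P r) * ‖s r‖ ^ 2 + (V r + P r) * ‖t r‖ ^ 2
    + 2 * (dil w δ t t1 r * (starRingEnd ℂ) (s r)).im
    - (I * μ * (t r * (starRingEnd ℂ) (s r) + s r * (starRingEnd ℂ) (t r))).re
    + (S0 r * (starRingEnd ℂ) (s r)).re + (T0 r * (starRingEnd ℂ) (t r)).re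

lemma hasDerivAt_En (h : GSys n R2 q P V w δ μ s t s1 t1 S0 T0) {r : ℝ} (hr : r ∈ Ioo 0 R2) :
    HasDerivAt (En n w s t s1 t1) (r ^ n * eDen q P V w δ μ s t s1 t1 S0 T0 r) r := by
  have hsc : HasDerivAt (fun x => (starRingEnd ℂ) (s x)) ((starRingEnd ℂ) (s1 r)) r := by
    simpa using (h.ds r hr).star
  have htc : HasDerivAt (fun x => (starRingEnd ℂ) (t x)) ((starRingEnd ℂ) (t1 r)) r := by
    simpa using (h.dt r hr).star
  have h1 := ((h.es r hr).mul hsc).add ((h.et r hr).mul htc)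
  have h1' := Complex.reCLM.hasFDerivAt.comp_hasDerivAt r h1
  have h2 := ((h.ds r hr).mul htc).const_mul I
  have h2' := Complex.reCLM.hasFDerivAt.comp_hasDerivAt r h2
  have h3 := (h.dw r hr).mul h2'
  have h4 := h1'.add h3
  have h5 : HasDerivAt (En n w s t s1 t1) _ r := h4
  refine h5.congr_deriv ?_
  simp only [eDen, dil, Complex.reCLM_apply, Function.comp, Pi.mul_apply]
  rw [← Complex.normSq_eq_norm_sq, ← Complex.normSq_eq_norm_sq, ← Complex.normSq_eq_norm_sq,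
    ← Complex.normSq_eq_norm_sq]
  simp only [Complex.normSq_apply, Complex.add_re, Complex.mul_re, Complex.sub_re, Complex.add_im,
    Complex.mul_im, Complex.sub_im, Complex.ofReal_re, Complex.ofReal_im, Complex.conj_re,
    Complex.conj_im, Complex.I_re, Complex.I_im]
  ring


lemma integrableOn_cont {R : ℝ} (hR : 0 ≤ R) {f : ℝ → ℝ} (hf : ContinuousOn f (Icc 0 R)) :
    IntervalIntegrable f volume 0 R := by
  have : ContinuousOn f (uIcc 0 R) := by rwa [uIcc_of_le hR]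
  exact this.intervalIntegrable

lemma norm_dil_le (r : ℝ) {C : ℝ} (hw : |r * w r| ≤ C) (hδ : |δ r| ≤ C) (u u1 : ℝ → ℂ) :
    ‖dil w δ u u1 r‖ ≤ C * (‖u1 r‖ + ‖u r‖) := by
  unfold dil
  have h1 : ‖((r * w r : ℝ) : ℂ) * u1 r‖ ≤ C * ‖u1 r‖ := by
    rw [norm_mul, Complex.norm_real]
    exact mul_le_mul_of_nonneg_right hw (norm_nonneg _)
  have h2 : ‖(δ r : ℂ) * u r‖ ≤ C * ‖u r‖ := by
    rw [norm_mul, Complex.norm_real]
    exact mul_le_mul_of_nonneg_right hδ (norm_nonneg _)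
  calc _ ≤ _ := norm_add_le _ _
    _ ≤ _ := by linarith

/-- Pointwise lower bound of the energy density. -/
lemma eDen_ge (C ε' : ℝ) (hC : 0 < C) (hε : 0 < ε') (r : ℝ)
    (hw : |r * w r| ≤ C) (hδ : |δ r| ≤ C) (hV : -C ≤ V r) (hμ : ‖μ‖ ≤ C) :
    ‖s1 r‖ ^ 2 + 1 / 2 * ‖t1 r‖ ^ 2 + q * P r * ‖s r‖ ^ 2 - |V r + P r| * ‖t r‖ ^ 2
      - ε' * ‖t r‖ ^ 2 - (C + 2 * C ^ 2 + 8 * C ^ 2 / ε' + 1 / 2) * ‖s r‖ ^ 2
      - 1 / 2 * ‖S0 r‖ ^ 2 - 1 / (2 * ε') * ‖T0 r‖ ^ 2 ≤ eDen q P V w δ μ s t s1 t1 S0 T0 r := by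
  have hd := norm_dil_le (w := w) (δ := δ) r hw hδ t t1
  have e1 : -(C * (‖t1 r‖ + ‖t r‖) * ‖s r‖) ≤ (dil w δ t t1 r * (starRingEnd ℂ) (s r)).im := by
    have h1 := Complex.abs_im_le_norm (dil w δ t t1 r * (starRingEnd ℂ) (s r))
    rw [norm_mul, Complex.norm_conj] at h1
    have h2 := mul_le_mul_of_nonneg_right hd (norm_nonneg (s r))
    linarith [neg_abs_le (dil w δ t t1 r * (starRingEnd ℂ) (s r)).im]
  have e2 : (I * μ * (t r * (starRingEnd ℂ) (s r) + s r * (starRingEnd ℂ) (t r))).re ≤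
      2 * C * (‖t r‖ * ‖s r‖) := by
    have h1 := Complex.re_le_norm (I * μ * (t r * (starRingEnd ℂ) (s r) + s r * (starRingEnd ℂ) (t r)))
    have h2 : ‖t r * (starRingEnd ℂ) (s r) + s r * (starRingEnd ℂ) (t r)‖ ≤ 2 * (‖t r‖ * ‖s r‖) := by
      calc _ ≤ _ := norm_add_le _ _
        _ = _ := by rw [norm_mul, norm_mul, Complex.norm_conj, Complex.norm_conj]; ring
    rw [norm_mul, norm_mul, Complex.norm_I, one_mul] at h1
    calc _ ≤ _ := h1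
      _ ≤ C * (2 * (‖t r‖ * ‖s r‖)) := mul_le_mul hμ h2 (norm_nonneg _) hC.le
      _ = _ := by ring
  have e3 : -(‖S0 r‖ * ‖s r‖) ≤ (S0 r * (starRingEnd ℂ) (s r)).re := by
    have h1 := Complex.abs_re_le_norm (S0 r * (starRingEnd ℂ) (s r))
    rw [norm_mul, Complex.norm_conj] at h1
    linarith [neg_abs_le (S0 r * (starRingEnd ℂ) (s r)).re]
  have e4 : -(‖T0 r‖ * ‖t r‖) ≤ (T0 r * (starRingEnd ℂ) (t r)).re := by
    have h1 := Complex.abs_re_le_norm (T0 r * (starRingEnd ℂ) (t r))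
    rw [norm_mul, Complex.norm_conj] at h1
    linarith [neg_abs_le (T0 r * (starRingEnd ℂ) (t r)).re]
  have e5 : -|V r + P r| * ‖t r‖ ^ 2 ≤ (V r + P r) * ‖t r‖ ^ 2 := by
    apply mul_le_mul_of_nonneg_right (neg_abs_le _) (sq_nonneg _)
  have e6 : -C * ‖s r‖ ^ 2 ≤ V r * ‖s r‖ ^ 2 := mul_le_mul_of_nonneg_right hV (sq_nonneg _)
  -- Young inequalities
  have y1 : 2 * (C * ‖t1 r‖ * ‖s r‖) ≤ 1 / 2 * ‖t1 r‖ ^ 2 + 2 * C ^ 2 * ‖s r‖ ^ 2 := by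
    nlinarith [sq_nonneg (‖t1 r‖ - 2 * C * ‖s r‖)]
  have y2 : 4 * C * (‖t r‖ * ‖s r‖) ≤ ε' / 2 * ‖t r‖ ^ 2 + 8 * C ^ 2 / ε' * ‖s r‖ ^ 2 := by
    have h0 : 0 ≤ (ε' * ‖t r‖ - 4 * C * ‖s r‖) ^ 2 / (2 * ε') := by positivity
    have h1 : (ε' * ‖t r‖ - 4 * C * ‖s r‖) ^ 2 / (2 * ε') =
        ε' / 2 * ‖t r‖ ^ 2 + 8 * C ^ 2 / ε' * ‖s r‖ ^ 2 - 4 * C * (‖t r‖ * ‖s r‖) := by
      field_simp
      ring
    linarith
  have y3 : ‖S0 r‖ * ‖s r‖ ≤ 1 / 2 * ‖S0 r‖ ^ 2 + 1 / 2 * ‖s r‖ ^ 2 := by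
    nlinarith [sq_nonneg (‖S0 r‖ - ‖s r‖)]
  have y4 : ‖T0 r‖ * ‖t r‖ ≤ 1 / (2 * ε') * ‖T0 r‖ ^ 2 + ε' / 2 * ‖t r‖ ^ 2 := by
    have h0 : 0 ≤ (‖T0 r‖ - ε' * ‖t r‖) ^ 2 / (2 * ε') := by positivity
    have h1 : (‖T0 r‖ - ε' * ‖t r‖) ^ 2 / (2 * ε') =
        1 / (2 * ε') * ‖T0 r‖ ^ 2 + ε' / 2 * ‖t r‖ ^ 2 - ‖T0 r‖ * ‖t r‖ := by
      field_simp
      ring
    linarith
  unfold eDen
  nlinarith

lemma continuousOn_eDen (h : GSys n R2 q P V w δ μ s t s1 t1 S0 T0) :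
    ContinuousOn (eDen q P V w δ μ s t s1 t1 S0 T0) (Icc 0 R2) := by
  have hcs := Complex.continuous_conj.comp_continuousOn h.cs
  have hct := Complex.continuous_conj.comp_continuousOn h.ct
  have hre : ∀ {f : ℝ → ℂ}, ContinuousOn f (Icc 0 R2) → ContinuousOn (fun r => (f r).re) (Icc 0 R2) :=
    fun hf => Complex.continuous_re.comp_continuousOn hf
  have him : ∀ {f : ℝ → ℂ}, ContinuousOn f (Icc 0 R2) → ContinuousOn (fun r => (f r).im) (Icc 0 R2) :=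
    fun hf => Complex.continuous_im.comp_continuousOn hf
  have hdil : ContinuousOn (dil w δ t t1) (Icc 0 R2) := by
    unfold dil
    exact ((Complex.continuous_ofReal.comp_continuousOn (continuousOn_id.mul h.cw)).mul h.ct1).add
      ((Complex.continuous_ofReal.comp_continuousOn h.cδ).mul h.ct)
  unfold eDen
  refine ((((((((h.cs1.norm.pow 2).add (h.ct1.norm.pow 2)).add
    ((h.cV.add (continuousOn_const.mul h.cP)).mul (h.cs.norm.pow 2))).add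
    ((h.cV.add h.cP).mul (h.ct.norm.pow 2))).add
    (continuousOn_const.mul (him (hdil.mul hcs)))).sub
    (hre (continuousOn_const.mul ((h.ct.mul hcs).add (h.cs.mul hct))))).add
    (hre (h.cS0.mul hcs)))).add (hre (h.cT0.mul hct))

lemma continuousOn_En (h : GSys n R2 q P V w δ μ s t s1 t1 S0 T0) :
    ContinuousOn (En n w s t s1 t1) (Icc 0 R2) := by
  have hcs := Complex.continuous_conj.comp_continuousOn h.cs
  have hct := Complex.continuous_conj.comp_continuousOn h.ct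
  have hre : ∀ {f : ℝ → ℂ}, ContinuousOn f (Icc 0 R2) → ContinuousOn (fun r => (f r).re) (Icc 0 R2) :=
    fun hf => Complex.continuous_re.comp_continuousOn hf
  have hp : ContinuousOn (fun r : ℝ => ((r ^ n : ℝ) : ℂ)) (Icc 0 R2) :=
    Complex.continuous_ofReal.comp_continuousOn (continuousOn_id.pow n)
  unfold En
  exact (hre (((hp.mul h.cs1).mul hcs).add ((hp.mul h.ct1).mul hct))).add
    (((continuousOn_id.pow (n + 1)).mul h.cw).mul (hre (continuousOn_const.mul (h.cs.mul hct))))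

/-- The energy identity. -/
lemma energy_identity (h : GSys n R2 q P V w δ μ s t s1 t1 S0 T0) :
    ∫ r in (0 : ℝ)..R2, r ^ n * eDen q P V w δ μ s t s1 t1 S0 T0 r = En n w s t s1 t1 R2 := by
  have hn := h.n_pos
  rw [intervalIntegral.integral_eq_sub_of_hasDerivAt_of_le h.R2_pos.le h.continuousOn_En
    (fun r hr => h.hasDerivAt_En hr)
    (integrableOn_cont h.R2_pos.le ((continuousOn_id.pow n).mul h.continuousOn_eDen))]
  have h0 : En n w s t s1 t1 0 = 0 := by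
    unfold En
    simp [Nat.one_le_iff_ne_zero.mp hn]
  rw [h0, sub_zero]

/-- Integrated energy inequality. -/
lemma energy_ineq (h : GSys n R2 q P V w δ μ s t s1 t1 S0 T0) {C ε' : ℝ} (hC : 0 < C) (hε : 0 < ε')
    (hw : ∀ r ∈ Icc 0 R2, |r * w r| ≤ C) (hδ : ∀ r ∈ Icc 0 R2, |δ r| ≤ C)
    (hV : ∀ r ∈ Icc 0 R2, -C ≤ V r) (hμ : ‖μ‖ ≤ C) :
    (∫ r in (0 : ℝ)..R2, r ^ n * ‖s1 r‖ ^ 2) + 1 / 2 * (∫ r in (0 : ℝ)..R2, r ^ n * ‖t1 r‖ ^ 2)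
      + q * (∫ r in (0 : ℝ)..R2, r ^ n * (P r * ‖s r‖ ^ 2)) ≤
    En n w s t s1 t1 R2 + (∫ r in (0 : ℝ)..R2, r ^ n * (|V r + P r| * ‖t r‖ ^ 2))
      + ε' * (∫ r in (0 : ℝ)..R2, r ^ n * ‖t r‖ ^ 2)
      + (C + 2 * C ^ 2 + 8 * C ^ 2 / ε' + 1 / 2) * (∫ r in (0 : ℝ)..R2, r ^ n * ‖s r‖ ^ 2)
      + 1 / 2 * (∫ r in (0 : ℝ)..R2, r ^ n * ‖S0 r‖ ^ 2)
      + 1 / (2 * ε') * (∫ r in (0 : ℝ)..R2, r ^ n * ‖T0 r‖ ^ 2) := by
  have hid := h.energy_identity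
  have hR := h.R2_pos.le
  have hc : ∀ {f : ℝ → ℝ}, ContinuousOn f (Icc 0 R2) →
      IntervalIntegrable (fun r => r ^ n * f r) volume 0 R2 := fun hf =>
    integrableOn_cont hR ((continuousOn_id.pow n).mul hf)
  have i1 : IntervalIntegrable (fun r => r ^ n * ‖s1 r‖ ^ 2) volume 0 R2 := hc (h.cs1.norm.pow 2)
  have i2 : IntervalIntegrable (fun r => r ^ n * ‖t1 r‖ ^ 2) volume 0 R2 := hc (h.ct1.norm.pow 2)
  have i3 : IntervalIntegrable (fun r => r ^ n * (P r * ‖s r‖ ^ 2)) volume 0 R2 :=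
    hc (h.cP.mul (h.cs.norm.pow 2))
  have i4 : IntervalIntegrable (fun r => r ^ n * (|V r + P r| * ‖t r‖ ^ 2)) volume 0 R2 :=
    hc ((h.cV.add h.cP).abs.mul (h.ct.norm.pow 2))
  have i5 : IntervalIntegrable (fun r => r ^ n * ‖t r‖ ^ 2) volume 0 R2 := hc (h.ct.norm.pow 2)
  have i6 : IntervalIntegrable (fun r => r ^ n * ‖s r‖ ^ 2) volume 0 R2 := hc (h.cs.norm.pow 2)
  have i7 : IntervalIntegrable (fun r => r ^ n * ‖S0 r‖ ^ 2) volume 0 R2 := hc (h.cS0.norm.pow 2)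
  have i8 : IntervalIntegrable (fun r => r ^ n * ‖T0 r‖ ^ 2) volume 0 R2 := hc (h.cT0.norm.pow 2)
  set K := (C + 2 * C ^ 2 + 8 * C ^ 2 / ε' + 1 / 2)
  have j1 := i1.add (i2.const_mul (1 / 2))
  have j2 := j1.add (i3.const_mul q)
  have j3 := j2.sub i4
  have j4 := j3.sub (i5.const_mul ε')
  have j5 := j4.sub (i6.const_mul K)
  have j6 := j5.sub (i7.const_mul (1 / 2))
  have hmono : ∫ r in (0 : ℝ)..R2, (r ^ n * ‖s1 r‖ ^ 2 + 1 / 2 * (r ^ n * ‖t1 r‖ ^ 2)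
      + q * (r ^ n * (P r * ‖s r‖ ^ 2)) - r ^ n * (|V r + P r| * ‖t r‖ ^ 2)
      - ε' * (r ^ n * ‖t r‖ ^ 2) - K * (r ^ n * ‖s r‖ ^ 2)
      - 1 / 2 * (r ^ n * ‖S0 r‖ ^ 2) - 1 / (2 * ε') * (r ^ n * ‖T0 r‖ ^ 2)) ≤
      ∫ r in (0 : ℝ)..R2, r ^ n * eDen q P V w δ μ s t s1 t1 S0 T0 r := by
    refine intervalIntegral.integral_mono_on hR (j6.sub (i8.const_mul _)) (hc h.continuousOn_eDen) ?_
    intro r hr
    have h1 := eDen_ge (q := q) (P := P) (V := V) (w := w) (δ := δ) (μ := μ) (s := s) (t := t)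
      (s1 := s1) (t1 := t1) (S0 := S0) (T0 := T0) C ε' hC hε r (hw r hr) (hδ r hr) (hV r hr) hμ
    have h2 := mul_le_mul_of_nonneg_left h1 (pow_nonneg hr.1 n)
    refine le_trans (le_of_eq ?_) h2
    ring
  rw [hid, intervalIntegral.integral_sub j6 (i8.const_mul _),
    intervalIntegral.integral_sub j5 (i7.const_mul _),
    intervalIntegral.integral_sub j4 (i6.const_mul _),
    intervalIntegral.integral_sub j3 (i5.const_mul _),
    intervalIntegral.integral_sub j2 i4,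
    intervalIntegral.integral_add j1 (i3.const_mul _),
    intervalIntegral.integral_add i1 (i2.const_mul _)] at hmono
  simp only [intervalIntegral.integral_const_mul] at hmono
  linarith

end GSys

end Vale.Agent.P139.H311
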