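import Vale.Agent.P139.H311.CoreB

/-!
Block (B), part 3: bounds for the inner problem.
-/

open MeasureTheory Set Complex

namespace Vale.Agent.P139.H311

/-- Monotonicity of the integral of a nonnegative continuous function. -/
lemma int_mono_sub {R2 a b : ℝ} (h0 : 0 ≤ a) (hab : a ≤ b) (hb : b ≤ R2) {f : ℝ → ℝ}
    (hf : ContinuousOn f (Icc 0 R2)) (hpos : ∀ r ∈ Icc 0 R2, 0 ≤ f r) :
    ∫ r in a..b, f r ≤ ∫ r in (0 : ℝ)..R2, f r := by
  have hR : 0 ≤ R2 := h0.trans (hab.trans hb)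
  apply intervalIntegral.integral_mono_interval h0 hab hb
  · have : ∀ᵐ x ∂(volume.restrict (Ioc 0 R2)), x ∈ Ioc 0 R2 := ae_restrict_mem measurableSet_Ioc
    filter_upwards [this] with x hx
    exact hpos x ⟨hx.1.le, hx.2⟩
  · exact GSys.integrableOn_cont hR hf

/-- Weighted Cauchy-Schwarz. -/
lemma sq_int_weight_le {n : ℕ} {R : ℝ} (hR : 0 ≤ R) {f : ℝ → ℝ} (hf : ContinuousOn f (Icc 0 R)) :
    (∫ r in (0 : ℝ)..R, r ^ n * f r) ^ 2 ≤ R ^ (n + 1) * ∫ r in (0 : ℝ)..R, r ^ n * (f r) ^ 2 := by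
  have hc : ContinuousOn (fun r => r ^ n * f r) (Icc 0 R) := (continuousOn_id.pow n).mul hf
  have h1 := sq_integral_le hR hc
  have h2 : ∫ r in (0 : ℝ)..R, (r ^ n * f r) ^ 2 ≤ ∫ r in (0 : ℝ)..R, R ^ n * (r ^ n * (f r) ^ 2) := by
    apply intervalIntegral.integral_mono_on hR
    · exact GSys.integrableOn_cont hR (hc.pow 2)
    · exact GSys.integrableOn_cont hR
        (continuousOn_const.mul ((continuousOn_id.pow n).mul (hf.pow 2)))
    · intro r hr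
      have h3 : r ^ n ≤ R ^ n := pow_le_pow_left₀ hr.1 hr.2 n
      have h4 : 0 ≤ r ^ n * (f r) ^ 2 := mul_nonneg (pow_nonneg hr.1 n) (sq_nonneg _)
      calc (r ^ n * f r) ^ 2 = r ^ n * (r ^ n * (f r) ^ 2) := by ring
        _ ≤ R ^ n * (r ^ n * (f r) ^ 2) := mul_le_mul_of_nonneg_right h3 h4
  rw [intervalIntegral.integral_const_mul] at h2
  calc _ ≤ _ := h1
    _ ≤ (R - 0) * (R ^ n * ∫ r in (0 : ℝ)..R, r ^ n * (f r) ^ 2) :=
        mul_le_mul_of_nonneg_left h2 (by linarith)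
    _ = _ := by ring

namespace GSys

variable {n : ℕ} {R2 q : ℝ} {P V w δ : ℝ → ℝ} {μ : ℂ} {s t s1 t1 S0 T0 : ℝ → ℂ}

section

variable (h : GSys n R2 q P V w δ μ s t s1 t1 S0 T0)
include h

lemma c_rs : ContinuousOn (fun r => r ^ n * ‖s r‖ ^ 2) (Icc 0 R2) :=
  (continuousOn_id.pow n).mul (h.cs.norm.pow 2)

lemma c_rt : ContinuousOn (fun r => r ^ n * ‖t r‖ ^ 2) (Icc 0 R2) :=
  (continuousOn_id.pow n).mul (h.ct.norm.pow 2)

lemma c_rs1 : ContinuousOn (fun r => r ^ n * ‖s1 r‖ ^ 2) (Icc 0 R2) :=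
  (continuousOn_id.pow n).mul (h.cs1.norm.pow 2)

lemma c_rt1 : ContinuousOn (fun r => r ^ n * ‖t1 r‖ ^ 2) (Icc 0 R2) :=
  (continuousOn_id.pow n).mul (h.ct1.norm.pow 2)

lemma c_rPs : ContinuousOn (fun r => r ^ n * (P r * ‖s r‖ ^ 2)) (Icc 0 R2) :=
  (continuousOn_id.pow n).mul (h.cP.mul (h.cs.norm.pow 2))

lemma c_rVPt : ContinuousOn (fun r => r ^ n * (|V r + P r| * ‖t r‖ ^ 2)) (Icc 0 R2) :=
  (continuousOn_id.pow n).mul ((h.cV.add h.cP).abs.mul (h.ct.norm.pow 2))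

/-- Control of `s` in the region where `P ≥ c0`. -/
lemma int_s_le {a b c0 : ℝ} (h0 : 0 ≤ a) (hab : a ≤ b) (hb : b ≤ R2) (hc0 : 0 < c0)
    (hP0 : ∀ r ∈ Icc 0 R2, 0 ≤ P r) (hP : ∀ r ∈ Icc a b, c0 ≤ P r) :
    ∫ r in a..b, r ^ n * ‖s r‖ ^ 2 ≤ 1 / c0 * ∫ r in (0 : ℝ)..R2, r ^ n * (P r * ‖s r‖ ^ 2) := by
  have hsub : Icc a b ⊆ Icc 0 R2 := Icc_subset_Icc h0 hb
  have hint : ∀ {f : ℝ → ℝ}, ContinuousOn f (Icc 0 R2) → IntervalIntegrable f volume a b := by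
    intro f hf
    have : ContinuousOn f (uIcc a b) := by
      rw [uIcc_of_le hab]; exact hf.mono hsub
    exact this.intervalIntegrable
  have h1 : ∫ r in a..b, r ^ n * ‖s r‖ ^ 2 ≤ ∫ r in a..b, 1 / c0 * (r ^ n * (P r * ‖s r‖ ^ 2)) := by
    apply intervalIntegral.integral_mono_on hab (hint h.c_rs) ((hint h.c_rPs).const_mul _)
    intro r hr
    have hr0 : 0 ≤ r := h0.trans hr.1
    have e1 : 0 ≤ r ^ n * ‖s r‖ ^ 2 := by positivity
    have e2 : 1 / c0 * (r ^ n * (P r * ‖s r‖ ^ 2)) = (P r / c0) * (r ^ n * ‖s r‖ ^ 2) := by ring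
    rw [e2]
    have e3 : 1 ≤ P r / c0 := by rw [le_div_iff₀ hc0]; linarith [hP r hr]
    nlinarith
  rw [intervalIntegral.integral_const_mul] at h1
  refine h1.trans ?_
  apply mul_le_mul_of_nonneg_left _ (by positivity)
  apply int_mono_sub h0 hab hb h.c_rPs
  intro r hr
  have := hP0 r hr
  have := hr.1
  positivity

/-- Pointwise bound of `s` in the layer. -/
lemma sup_s_le {η c0 : ℝ} (hη : 0 < η) (hη3 : 3 * η < R2) (hc0 : 0 < c0)
    (hP0 : ∀ r ∈ Icc 0 R2, 0 ≤ P r) (hP : ∀ r ∈ Icc 0 (R2 - 2 * η), c0 ≤ P r)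
    {x : ℝ} (hx : x ∈ Icc (R2 - 3 * η) R2) :
    (R2 - 3 * η) ^ n * ‖s x‖ ^ 2 ≤
      2 / (η * c0) * (∫ r in (0 : ℝ)..R2, r ^ n * (P r * ‖s r‖ ^ 2))
        + 6 * η * ∫ r in (0 : ℝ)..R2, r ^ n * ‖s1 r‖ ^ 2 := by
  set b := R2 - 3 * η with hb
  set a := R2 - 2 * η with ha
  have hb0 : 0 ≤ b := by linarith
  have hbR : b ≤ R2 := by linarith
  have haR : a ≤ R2 := by linarith
  have hba : b ≤ a := by linarith
  set Ns := ∫ r in (0 : ℝ)..R2, r ^ n * ‖s1 r‖ ^ 2 with hNs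
  set Pi := ∫ r in (0 : ℝ)..R2, r ^ n * (P r * ‖s r‖ ^ 2) with hPi
  have hsub : Icc b R2 ⊆ Icc 0 R2 := Icc_subset_Icc hb0 le_rfl
  -- derivative term
  have h1 : b ^ n * ∫ r in b..R2, ‖s1 r‖ ^ 2 ≤ Ns := by
    rw [← intervalIntegral.integral_const_mul]
    have e1 : ∫ r in b..R2, b ^ n * ‖s1 r‖ ^ 2 ≤ ∫ r in b..R2, r ^ n * ‖s1 r‖ ^ 2 := by
      apply intervalIntegral.integral_mono_on hbR
      · have : ContinuousOn (fun r => b ^ n * ‖s1 r‖ ^ 2) (uIcc b R2) := by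
          rw [uIcc_of_le hbR]
          exact continuousOn_const.mul ((h.cs1.mono hsub).norm.pow 2)
        exact this.intervalIntegrable
      · have : ContinuousOn (fun r => r ^ n * ‖s1 r‖ ^ 2) (uIcc b R2) := by
          rw [uIcc_of_le hbR]
          exact h.c_rs1.mono hsub
        exact this.intervalIntegrable
      · intro r hr
        apply mul_le_mul_of_nonneg_right _ (sq_nonneg _)
        exact pow_le_pow_left₀ hb0 hr.1 n
    refine e1.trans ?_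
    apply int_mono_sub hb0 hbR le_rfl h.c_rs1
    intro r hr
    have := hr.1
    positivity
  have h2 : ∀ y ∈ Icc b a, b ^ n * ‖s x‖ ^ 2 ≤ 2 * (y ^ n * ‖s y‖ ^ 2) + 6 * η * Ns := by
    intro y hy
    have hy' : y ∈ Icc b R2 := ⟨hy.1, hy.2.trans haR⟩
    have e1 := norm_sq_le_of_deriv (h.cs.mono hsub) (h.cs1.mono hsub)
      (fun r hr => h.ds r ⟨lt_of_le_of_lt hb0 hr.1, hr.2⟩) hx hy'
    have e2 : b ^ n ≤ y ^ n := pow_le_pow_left₀ hb0 hy.1 n
    have e3 : b ^ n * ‖s y‖ ^ 2 ≤ y ^ n * ‖s y‖ ^ 2 := mul_le_mul_of_nonneg_right e2 (sq_nonneg _)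
    have e4 := mul_le_mul_of_nonneg_left e1 (pow_nonneg hb0 n)
    have e5 : R2 - b = 3 * η := by rw [hb]; ring
    rw [e5] at e4
    have e6 : 6 * η * (b ^ n * ∫ r in b..R2, ‖s1 r‖ ^ 2) ≤ 6 * η * Ns :=
      mul_le_mul_of_nonneg_left h1 (by positivity)
    nlinarith
  have hbasub : Icc b a ⊆ Icc 0 R2 := Icc_subset_Icc hb0 haR
  have hint : IntervalIntegrable (fun y => y ^ n * ‖s y‖ ^ 2) volume b a := by
    have : ContinuousOn (fun y => y ^ n * ‖s y‖ ^ 2) (uIcc b a) := by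
      rw [uIcc_of_le hba]; exact h.c_rs.mono hbasub
    exact this.intervalIntegrable
  have h3 : ∫ _ in b..a, b ^ n * ‖s x‖ ^ 2 ≤ ∫ y in b..a, (2 * (y ^ n * ‖s y‖ ^ 2) + 6 * η * Ns) := by
    apply intervalIntegral.integral_mono_on hba intervalIntegrable_const
      ((hint.const_mul _).add intervalIntegrable_const) h2
  rw [intervalIntegral.integral_const, intervalIntegral.integral_add (hint.const_mul _)
    intervalIntegrable_const, intervalIntegral.integral_const_mul,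
    intervalIntegral.integral_const] at h3
  have h4 := h.int_s_le hb0 hba haR hc0 hP0 (fun r hr => hP r ⟨hb0.trans hr.1, hr.2⟩)
  have h5 : a - b = η := by rw [ha, hb]; ring
  rw [h5, smul_eq_mul, smul_eq_mul] at h3
  have h6 : η * (b ^ n * ‖s x‖ ^ 2) ≤ η * (2 / (η * c0) * Pi + 6 * η * Ns) := by
    have e1 : η * (2 / (η * c0) * Pi + 6 * η * Ns) = 2 * (1 / c0 * Pi) + η * (6 * η * Ns) := by
      field_simp
    rw [e1]
    linarith
  exact le_of_mul_le_mul_left h6 hη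

/-- Pointwise bound of `t` in the layer. -/
lemma sup_t_le {η : ℝ} (hη : 0 < η) (hη3 : 3 * η < R2) (htR : ‖t R2‖ ≤ 1)
    {x : ℝ} (hx : x ∈ Icc (R2 - 2 * η) R2) :
    (R2 - 2 * η) ^ n * ‖t x‖ ^ 2 ≤
      2 * R2 ^ n + 4 * η * ∫ r in (0 : ℝ)..R2, r ^ n * ‖t1 r‖ ^ 2 := by
  set a := R2 - 2 * η with ha
  have ha0 : 0 ≤ a := by linarith
  have haR : a ≤ R2 := by linarith
  set Nt := ∫ r in (0 : ℝ)..R2, r ^ n * ‖t1 r‖ ^ 2 with hNt
  have hsub : Icc a R2 ⊆ Icc 0 R2 := Icc_subset_Icc ha0 le_rfl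
  have h1 : a ^ n * ∫ r in a..R2, ‖t1 r‖ ^ 2 ≤ Nt := by
    rw [← intervalIntegral.integral_const_mul]
    have e1 : ∫ r in a..R2, a ^ n * ‖t1 r‖ ^ 2 ≤ ∫ r in a..R2, r ^ n * ‖t1 r‖ ^ 2 := by
      apply intervalIntegral.integral_mono_on haR
      · have : ContinuousOn (fun r => a ^ n * ‖t1 r‖ ^ 2) (uIcc a R2) := by
          rw [uIcc_of_le haR]
          exact continuousOn_const.mul ((h.ct1.mono hsub).norm.pow 2)
        exact this.intervalIntegrable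
      · have : ContinuousOn (fun r => r ^ n * ‖t1 r‖ ^ 2) (uIcc a R2) := by
          rw [uIcc_of_le haR]
          exact h.c_rt1.mono hsub
        exact this.intervalIntegrable
      · intro r hr
        apply mul_le_mul_of_nonneg_right _ (sq_nonneg _)
        exact pow_le_pow_left₀ ha0 hr.1 n
    refine e1.trans ?_
    apply int_mono_sub ha0 haR le_rfl h.c_rt1
    intro r hr
    have := hr.1
    positivity
  have e1 := norm_sq_le_of_deriv (h.ct.mono hsub) (h.ct1.mono hsub)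
    (fun r hr => h.dt r ⟨lt_of_le_of_lt ha0 hr.1, hr.2⟩) hx ⟨haR, le_rfl⟩
  have e4 := mul_le_mul_of_nonneg_left e1 (pow_nonneg ha0 n)
  have e5 : R2 - a = 2 * η := by rw [ha]; ring
  rw [e5] at e4
  have e6 : 4 * η * (a ^ n * ∫ r in a..R2, ‖t1 r‖ ^ 2) ≤ 4 * η * Nt :=
    mul_le_mul_of_nonneg_left h1 (by positivity)
  have e7 : a ^ n * ‖t R2‖ ^ 2 ≤ R2 ^ n := by
    have f1 : a ^ n ≤ R2 ^ n := pow_le_pow_left₀ ha0 haR n
    have f2 : ‖t R2‖ ^ 2 ≤ 1 := by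
      have := norm_nonneg (t R2)
      nlinarith
    have f3 : 0 ≤ a ^ n := pow_nonneg ha0 n
    nlinarith [norm_nonneg (t R2)]
  nlinarith

end

end GSys

end Vale.Agent.P139.H311
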