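import Vale.Agent.P139.H311.CoreC

/-!
Block (B), part 4: closing the estimates for the inner problem.
-/

open MeasureTheory Set Complex

namespace Vale.Agent.P139.H311

/-- All hypotheses of the inner estimate. `η` is the half width of the layer, `ε1` the smallness
of the potential of `t` inside. -/
structure InnerHyp (n : ℕ) (R2 q : ℝ) (P V w δ : ℝ → ℝ) (μ : ℂ)
    (s t s1 t1 S0 T0 : ℝ → ℂ) (C c0 ε1 η : ℝ) : Prop where
  sys : GSys n R2 q P V w δ μ s t s1 t1 S0 T0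
  q_pos : 0 < q
  C_pos : 0 < C
  c0_pos : 0 < c0
  ε1_nonneg : 0 ≤ ε1
  η_pos : 0 < η
  η6 : 6 * η ≤ R2
  hV : ∀ r ∈ Icc 0 R2, |V r| ≤ C
  hP0 : ∀ r ∈ Icc 0 R2, 0 ≤ P r
  hPC : ∀ r ∈ Icc 0 R2, P r ≤ C
  hw : ∀ r ∈ Icc 0 R2, |r * w r| ≤ C
  hδ : ∀ r ∈ Icc 0 R2, |δ r| ≤ C
  hμ : ‖μ‖ ≤ C
  hPc : ∀ r ∈ Icc 0 (R2 - 2 * η), c0 ≤ P r
  hVP : ∀ r ∈ Icc 0 (R2 - 2 * η), |V r + P r| ≤ ε1
  sR : ‖s R2‖ ≤ 1
  tR : ‖t R2‖ ≤ 1
  s1R : ‖s1 R2‖ ≤ 1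
  t1R : ‖t1 R2‖ ≤ 1
  hS0 : ∫ r in (0 : ℝ)..R2, r ^ n * ‖S0 r‖ ^ 2 ≤ 1
  hT0 : ∫ r in (0 : ℝ)..R2, r ^ n * ‖T0 r‖ ^ 2 ≤ ε1 ^ 2

namespace InnerHyp

variable {n : ℕ} {R2 q : ℝ} {P V w δ : ℝ → ℝ} {μ : ℂ} {s t s1 t1 S0 T0 : ℝ → ℂ}
  {C c0 ε1 η : ℝ}

section

variable (H : InnerHyp n R2 q P V w δ μ s t s1 t1 S0 T0 C c0 ε1 η)
include H

lemma R2_pos : 0 < R2 := H.sys.R2_pos

lemma half_le : R2 / 2 ≤ R2 - 3 * η := by linarith [H.η6]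

lemma pow_le : R2 ^ n ≤ 2 ^ n * (R2 - 3 * η) ^ n := by
  rw [← mul_pow]
  apply pow_le_pow_left₀ H.R2_pos.le
  linarith [H.η6]

lemma pow_le' : R2 ^ n ≤ 2 ^ n * (R2 - 2 * η) ^ n := by
  refine H.pow_le.trans ?_
  apply mul_le_mul_of_nonneg_left _ (by positivity)
  apply pow_le_pow_left₀
  · linarith [H.half_le, H.R2_pos]
  · linarith [H.η_pos]

lemma ns_nonneg : 0 ≤ ∫ r in (0 : ℝ)..R2, r ^ n * ‖s1 r‖ ^ 2 := by
  apply intervalIntegral.integral_nonneg H.R2_pos.le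
  intro r hr
  have := hr.1
  positivity

lemma nt_nonneg : 0 ≤ ∫ r in (0 : ℝ)..R2, r ^ n * ‖t1 r‖ ^ 2 := by
  apply intervalIntegral.integral_nonneg H.R2_pos.le
  intro r hr
  have := hr.1
  positivity

lemma pi_nonneg : 0 ≤ ∫ r in (0 : ℝ)..R2, r ^ n * (P r * ‖s r‖ ^ 2) := by
  apply intervalIntegral.integral_nonneg H.R2_pos.le
  intro r hr
  have := hr.1
  have := H.hP0 r hr
  positivity

/-- Bound of the weighted `L^2` norm of `s`. -/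
lemma z_le : ∫ r in (0 : ℝ)..R2, r ^ n * ‖s r‖ ^ 2 ≤
    (1 + 4 * 2 ^ n) / c0 * (∫ r in (0 : ℝ)..R2, r ^ n * (P r * ‖s r‖ ^ 2))
      + 12 * 2 ^ n * η ^ 2 * ∫ r in (0 : ℝ)..R2, r ^ n * ‖s1 r‖ ^ 2 := by
  have hη := H.η_pos
  have hc0 := H.c0_pos
  have hη6 := H.η6
  set a := R2 - 2 * η with ha
  have ha0 : 0 ≤ a := by linarith
  have haR : a ≤ R2 := by linarith
  set Ns := ∫ r in (0 : ℝ)..R2, r ^ n * ‖s1 r‖ ^ 2 with hNs
  set Pi := ∫ r in (0 : ℝ)..R2, r ^ n * (P r * ‖s r‖ ^ 2) with hPi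
  have hi : ∀ {u v : ℝ}, 0 ≤ u → u ≤ v → v ≤ R2 →
      IntervalIntegrable (fun r => r ^ n * ‖s r‖ ^ 2) volume u v := by
    intro u v h0 h1 h2
    have : ContinuousOn (fun r => r ^ n * ‖s r‖ ^ 2) (uIcc u v) := by
      rw [uIcc_of_le h1]
      exact H.sys.c_rs.mono (Icc_subset_Icc h0 h2)
    exact this.intervalIntegrable
  have hsplit := intervalIntegral.integral_add_adjacent_intervals (hi le_rfl ha0 haR)
    (hi ha0 haR le_rfl)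
  rw [← hsplit]
  have h1 := H.sys.int_s_le le_rfl ha0 haR hc0 H.hP0 H.hPc
  have h2 : ∫ r in a..R2, r ^ n * ‖s r‖ ^ 2 ≤
      ∫ _ in a..R2, 2 ^ n * (2 / (η * c0) * Pi + 6 * η * Ns) := by
    apply intervalIntegral.integral_mono_on haR (hi ha0 haR le_rfl) intervalIntegrable_const
    intro r hr
    have e1 := H.sys.sup_s_le hη (by linarith [H.R2_pos]) hc0 H.hP0 H.hPc
      (x := r) ⟨by linarith [hr.1], hr.2⟩
    have e2 : r ^ n * ‖s r‖ ^ 2 ≤ R2 ^ n * ‖s r‖ ^ 2 :=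
      mul_le_mul_of_nonneg_right (pow_le_pow_left₀ (ha0.trans hr.1) hr.2 n) (sq_nonneg _)
    have e3 : R2 ^ n * ‖s r‖ ^ 2 ≤ (2 ^ n * (R2 - 3 * η) ^ n) * ‖s r‖ ^ 2 :=
      mul_le_mul_of_nonneg_right H.pow_le (sq_nonneg _)
    have e4 := mul_le_mul_of_nonneg_left e1 (show (0 : ℝ) ≤ 2 ^ n by positivity)
    calc _ ≤ _ := e2
      _ ≤ _ := e3
      _ = 2 ^ n * ((R2 - 3 * η) ^ n * ‖s r‖ ^ 2) := by ring
      _ ≤ _ := e4
  rw [intervalIntegral.integral_const, smul_eq_mul] at h2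
  have h3 : (R2 - a) * (2 ^ n * (2 / (η * c0) * Pi + 6 * η * Ns)) =
      4 * 2 ^ n / c0 * Pi + 12 * 2 ^ n * η ^ 2 * Ns := by
    rw [ha]
    field_simp
    ring
  rw [h3] at h2
  have h4 : (1 + 4 * 2 ^ n) / c0 * Pi = 1 / c0 * Pi + 4 * 2 ^ n / c0 * Pi := by ring
  rw [h4]
  linarith

/-- Bound of the weighted `L^2` norm of `t` (Hardy). -/
lemma tt_le : ∫ r in (0 : ℝ)..R2, r ^ n * ‖t r‖ ^ 2 ≤
    2 * R2 ^ (n + 1) + 4 * R2 ^ 2 * ∫ r in (0 : ℝ)..R2, r ^ n * ‖t1 r‖ ^ 2 := by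
  have h1 := hardy (n := n) H.R2_pos H.sys.ct H.sys.ct1 H.sys.dt
  have hR := H.R2_pos
  have hnt := H.nt_nonneg
  have h2 : 2 / ((n : ℝ) + 1) * R2 ^ (n + 1) * ‖t R2‖ ^ 2 ≤ 2 * R2 ^ (n + 1) := by
    have e1 : 2 / ((n : ℝ) + 1) ≤ 2 := by
      rw [div_le_iff₀ (by positivity)]
      have : (0 : ℝ) ≤ n := Nat.cast_nonneg n
      linarith
    have e2 : ‖t R2‖ ^ 2 ≤ 1 := by
      have := norm_nonneg (t R2)
      nlinarith [H.tR]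
    calc 2 / ((n : ℝ) + 1) * R2 ^ (n + 1) * ‖t R2‖ ^ 2
        ≤ 2 / ((n : ℝ) + 1) * R2 ^ (n + 1) * 1 := mul_le_mul_of_nonneg_left e2 (by positivity)
      _ ≤ 2 * R2 ^ (n + 1) := by
        rw [mul_one]
        exact mul_le_mul_of_nonneg_right e1 (by positivity)
  have h3 : 4 * R2 ^ 2 / ((n : ℝ) + 1) ^ 2 ≤ 4 * R2 ^ 2 := by
    apply div_le_self (by positivity)
    have : (0 : ℝ) ≤ n := Nat.cast_nonneg n
    nlinarith
  have h4 := mul_le_mul_of_nonneg_right h3 hnt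
  linarith

/-- The term with the potential of `t`. -/
lemma vpt_le : ∫ r in (0 : ℝ)..R2, r ^ n * (|V r + P r| * ‖t r‖ ^ 2) ≤
    ε1 * (∫ r in (0 : ℝ)..R2, r ^ n * ‖t r‖ ^ 2) +
      4 * C * 2 ^ n * η * (2 * R2 ^ n + 4 * η * ∫ r in (0 : ℝ)..R2, r ^ n * ‖t1 r‖ ^ 2) := by
  have hη := H.η_pos
  have hη6 := H.η6
  have hC := H.C_pos
  set a := R2 - 2 * η with ha
  have ha0 : 0 ≤ a := by linarith
  have haR : a ≤ R2 := by linarith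
  set Nt := ∫ r in (0 : ℝ)..R2, r ^ n * ‖t1 r‖ ^ 2 with hNt
  have hi : ∀ {f : ℝ → ℝ}, ContinuousOn f (Icc 0 R2) → ∀ {u v : ℝ}, 0 ≤ u → u ≤ v → v ≤ R2 →
      IntervalIntegrable f volume u v := by
    intro f hf u v h0 h1 h2
    have : ContinuousOn f (uIcc u v) := by
      rw [uIcc_of_le h1]
      exact hf.mono (Icc_subset_Icc h0 h2)
    exact this.intervalIntegrable
  have hsplit := intervalIntegral.integral_add_adjacent_intervals (hi H.sys.c_rVPt le_rfl ha0 haR)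
    (hi H.sys.c_rVPt ha0 haR le_rfl)
  rw [← hsplit]
  have h1 : ∫ r in (0 : ℝ)..a, r ^ n * (|V r + P r| * ‖t r‖ ^ 2) ≤
      ∫ r in (0 : ℝ)..a, ε1 * (r ^ n * ‖t r‖ ^ 2) := by
    apply intervalIntegral.integral_mono_on ha0 (hi H.sys.c_rVPt le_rfl ha0 haR)
      ((hi H.sys.c_rt le_rfl ha0 haR).const_mul _)
    intro r hr
    have e1 := H.hVP r hr
    have e2 : 0 ≤ r ^ n * ‖t r‖ ^ 2 := by
      have := hr.1
      positivity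
    calc r ^ n * (|V r + P r| * ‖t r‖ ^ 2) = |V r + P r| * (r ^ n * ‖t r‖ ^ 2) := by ring
      _ ≤ _ := mul_le_mul_of_nonneg_right e1 e2
  rw [intervalIntegral.integral_const_mul] at h1
  have h1' : ∫ r in (0 : ℝ)..a, r ^ n * ‖t r‖ ^ 2 ≤ ∫ r in (0 : ℝ)..R2, r ^ n * ‖t r‖ ^ 2 := by
    apply int_mono_sub le_rfl ha0 haR H.sys.c_rt
    intro r hr
    have := hr.1
    positivity
  have h1'' := mul_le_mul_of_nonneg_left h1' H.ε1_nonneg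
  have h2 : ∫ r in a..R2, r ^ n * (|V r + P r| * ‖t r‖ ^ 2) ≤
      ∫ _ in a..R2, 2 * C * 2 ^ n * (2 * R2 ^ n + 4 * η * Nt) := by
    apply intervalIntegral.integral_mono_on haR (hi H.sys.c_rVPt ha0 haR le_rfl)
      intervalIntegrable_const
    intro r hr
    have hr0 : r ∈ Icc 0 R2 := ⟨ha0.trans hr.1, hr.2⟩
    have e1 := H.sys.sup_t_le hη (by linarith [H.R2_pos]) H.tR hr
    have e2 : |V r + P r| ≤ 2 * C := by
      have f1 := H.hV r hr0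
      have f2 := H.hP0 r hr0
      have f3 := H.hPC r hr0
      rw [abs_le] at f1 ⊢
      constructor <;> linarith
    have e3 : r ^ n ≤ R2 ^ n := pow_le_pow_left₀ hr0.1 hr.2 n
    have e4 : r ^ n * ‖t r‖ ^ 2 ≤ 2 ^ n * (2 * R2 ^ n + 4 * η * Nt) := by
      calc r ^ n * ‖t r‖ ^ 2 ≤ R2 ^ n * ‖t r‖ ^ 2 := mul_le_mul_of_nonneg_right e3 (sq_nonneg _)
        _ ≤ (2 ^ n * (R2 - 2 * η) ^ n) * ‖t r‖ ^ 2 :=
          mul_le_mul_of_nonneg_right H.pow_le' (sq_nonneg _)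
        _ = 2 ^ n * ((R2 - 2 * η) ^ n * ‖t r‖ ^ 2) := by ring
        _ ≤ _ := mul_le_mul_of_nonneg_left e1 (by positivity)
    have e5 : 0 ≤ r ^ n * ‖t r‖ ^ 2 := by
      have := hr0.1
      positivity
    calc r ^ n * (|V r + P r| * ‖t r‖ ^ 2) = |V r + P r| * (r ^ n * ‖t r‖ ^ 2) := by ring
      _ ≤ (2 * C) * (2 ^ n * (2 * R2 ^ n + 4 * η * Nt)) :=
        mul_le_mul e2 e4 e5 (by positivity)
      _ = _ := by ring
  rw [intervalIntegral.integral_const, smul_eq_mul] at h2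
  have h3 : (R2 - a) * (2 * C * 2 ^ n * (2 * R2 ^ n + 4 * η * Nt)) =
      4 * C * 2 ^ n * η * (2 * R2 ^ n + 4 * η * Nt) := by
    rw [ha]; ring
  rw [h3] at h2
  linarith

/-- Boundary term. -/
lemma en_le : GSys.En n w s t s1 t1 R2 ≤ (2 + C) * R2 ^ n := by
  have hR := H.R2_pos
  have hRn : 0 ≤ R2 ^ n := by positivity
  have hmem : R2 ∈ Icc 0 R2 := ⟨hR.le, le_rfl⟩
  unfold GSys.En
  have h1 : ((((R2 ^ n : ℝ) : ℂ) * s1 R2) * (starRingEnd ℂ) (s R2) +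
      (((R2 ^ n : ℝ) : ℂ) * t1 R2) * (starRingEnd ℂ) (t R2)).re ≤ 2 * R2 ^ n := by
    refine (Complex.re_le_norm _).trans ?_
    refine (norm_add_le _ _).trans ?_
    rw [norm_mul, norm_mul, norm_mul, norm_mul, Complex.norm_conj, Complex.norm_conj,
      Complex.norm_real, Real.norm_eq_abs, abs_of_nonneg hRn]
    have e1 : R2 ^ n * ‖s1 R2‖ * ‖s R2‖ ≤ R2 ^ n * 1 * 1 := by
      apply mul_le_mul _ H.sR (norm_nonneg _) (by positivity)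
      exact mul_le_mul_of_nonneg_left H.s1R hRn
    have e2 : R2 ^ n * ‖t1 R2‖ * ‖t R2‖ ≤ R2 ^ n * 1 * 1 := by
      apply mul_le_mul _ H.tR (norm_nonneg _) (by positivity)
      exact mul_le_mul_of_nonneg_left H.t1R hRn
    linarith
  have h2 : R2 ^ (n + 1) * w R2 * (I * (s R2 * (starRingEnd ℂ) (t R2))).re ≤ C * R2 ^ n := by
    have e1 : |R2 ^ (n + 1) * w R2| ≤ R2 ^ n * C := by
      have : R2 ^ (n + 1) * w R2 = R2 ^ n * (R2 * w R2) := by ring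
      rw [this, abs_mul, abs_of_nonneg hRn]
      exact mul_le_mul_of_nonneg_left (H.hw R2 hmem) hRn
    have e2 : |(I * (s R2 * (starRingEnd ℂ) (t R2))).re| ≤ 1 := by
      refine (Complex.abs_re_le_norm _).trans ?_
      rw [norm_mul, norm_mul, Complex.norm_I, Complex.norm_conj, one_mul]
      have := norm_nonneg (t R2)
      calc ‖s R2‖ * ‖t R2‖ ≤ 1 * 1 := mul_le_mul H.sR H.tR (norm_nonneg _) (by norm_num)
        _ = 1 := by norm_num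
    calc _ ≤ |R2 ^ (n + 1) * w R2 * (I * (s R2 * (starRingEnd ℂ) (t R2))).re| := le_abs_self _
      _ = |R2 ^ (n + 1) * w R2| * |(I * (s R2 * (starRingEnd ℂ) (t R2))).re| := abs_mul _ _
      _ ≤ (R2 ^ n * C) * 1 := mul_le_mul e1 e2 (abs_nonneg _) (mul_nonneg hRn H.C_pos.le)
      _ = _ := by ring
  linarith

/-- The closed energy estimate. -/
lemma closed (ε' : ℝ) (hε' : 0 < ε') (h1 : ε1 ≤ ε') (h2 : ε' * (64 * R2 ^ 2) ≤ 1)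
    (hη1 : η ≤ 1) (hη2 : 12 * (C + 2 * C ^ 2 + 8 * C ^ 2 / ε' + 1 / 2) * 2 ^ n * η ^ 2 ≤ 1 / 2)
    (hη3 : 16 * C * 2 ^ n * η ^ 2 ≤ 1 / 8)
    (hq : (C + 2 * C ^ 2 + 8 * C ^ 2 / ε' + 1 / 2) * ((1 + 4 * 2 ^ n) / c0) ≤ q / 2) :
    1 / 2 * (∫ r in (0 : ℝ)..R2, r ^ n * ‖s1 r‖ ^ 2)
      + 1 / 4 * (∫ r in (0 : ℝ)..R2, r ^ n * ‖t1 r‖ ^ 2)
      + q / 2 * (∫ r in (0 : ℝ)..R2, r ^ n * (P r * ‖s r‖ ^ 2)) ≤
    (2 + C) * R2 ^ n + 4 * ε' * R2 ^ (n + 1) + 8 * C * 2 ^ n * R2 ^ n + 1 / 2 + ε' / 2 := by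
  have hC := H.C_pos
  have hη := H.η_pos
  have hR := H.R2_pos
  have hs := H.ns_nonneg
  have ht := H.nt_nonneg
  have hp := H.pi_nonneg
  have hz := H.z_le
  have htt := H.tt_le
  have hvpt := H.vpt_le
  have hen := H.en_le
  have hmain := H.sys.energy_ineq hC hε' H.hw H.hδ
    (fun r hr => (abs_le.mp (H.hV r hr)).1) H.hμ
  set K := C + 2 * C ^ 2 + 8 * C ^ 2 / ε' + 1 / 2 with hK
  have hK0 : 0 < K := by positivity
  set Ns := ∫ r in (0 : ℝ)..R2, r ^ n * ‖s1 r‖ ^ 2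
  set Nt := ∫ r in (0 : ℝ)..R2, r ^ n * ‖t1 r‖ ^ 2
  set Pi := ∫ r in (0 : ℝ)..R2, r ^ n * (P r * ‖s r‖ ^ 2)
  set Z := ∫ r in (0 : ℝ)..R2, r ^ n * ‖s r‖ ^ 2
  set T := ∫ r in (0 : ℝ)..R2, r ^ n * ‖t r‖ ^ 2
  have hT0' : 0 ≤ T := by
    apply intervalIntegral.integral_nonneg hR.le
    intro r hr
    have := hr.1
    positivity
  have a1 : K * Z ≤ q / 2 * Pi + 1 / 2 * Ns := by
    have e1 := mul_le_mul_of_nonneg_left hz hK0.le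
    have e2 := mul_le_mul_of_nonneg_right hq hp
    have e3 := mul_le_mul_of_nonneg_right hη2 hs
    calc K * Z ≤ K * ((1 + 4 * 2 ^ n) / c0 * Pi + 12 * 2 ^ n * η ^ 2 * Ns) := e1
      _ = K * ((1 + 4 * 2 ^ n) / c0) * Pi + 12 * K * 2 ^ n * η ^ 2 * Ns := by ring
      _ ≤ _ := add_le_add e2 e3
  have a2 : ε1 * T + ε' * T ≤ 4 * ε' * R2 ^ (n + 1) + 1 / 8 * Nt := by
    have e1 : ε1 * T ≤ ε' * T := mul_le_mul_of_nonneg_right h1 hT0'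
    have e2 := mul_le_mul_of_nonneg_left htt (show 0 ≤ 2 * ε' by positivity)
    have e3 := mul_le_mul_of_nonneg_right h2 ht
    nlinarith
  have a3 : 4 * C * 2 ^ n * η * (2 * R2 ^ n + 4 * η * Nt) ≤
      8 * C * 2 ^ n * R2 ^ n + 1 / 8 * Nt := by
    have e1 := mul_le_mul_of_nonneg_right hη3 ht
    have e2 : 8 * C * 2 ^ n * R2 ^ n * η ≤ 8 * C * 2 ^ n * R2 ^ n * 1 :=
      mul_le_mul_of_nonneg_left hη1 (by positivity)
    calc _ = 8 * C * 2 ^ n * R2 ^ n * η + 16 * C * 2 ^ n * η ^ 2 * Nt := by ring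
      _ ≤ _ := by linarith
  have a4 : 1 / (2 * ε') * (∫ r in (0 : ℝ)..R2, r ^ n * ‖T0 r‖ ^ 2) ≤ ε' / 2 := by
    have e1 : ε1 ^ 2 ≤ ε' ^ 2 := pow_le_pow_left₀ H.ε1_nonneg h1 2
    have e2 := mul_le_mul_of_nonneg_left (H.hT0.trans e1) (show 0 ≤ 1 / (2 * ε') by positivity)
    refine e2.trans (le_of_eq ?_)
    field_simp
  have a5 := H.hS0
  linarith

end

end InnerHyp

end Vale.Agent.P139.H311
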