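import Vale.Agent.P139.H311.CoreD

/-!
Block (B), part 5: the final inner estimate.
-/

open MeasureTheory Set Complex

namespace Vale.Agent.P139.H311

namespace InnerHyp

variable {n : ℕ} {R2 q : ℝ} {P V w δ : ℝ → ℝ} {μ : ℂ} {s t s1 t1 S0 T0 : ℝ → ℂ}
  {C c0 ε1 η : ℝ}

section

variable (H : InnerHyp n R2 q P V w δ μ s t s1 t1 S0 T0 C c0 ε1 η)
include H

/-- The flux identity for `t`. -/
lemma flux_t : ((R2 ^ n : ℝ) : ℂ) * t1 R2 + I * (((R2 ^ (n + 1) * w R2 : ℝ) : ℂ) * s R2) =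
    ∫ r in (0 : ℝ)..R2, ((r ^ n : ℝ) : ℂ) * (((V r + P r : ℝ) : ℂ) * t r - I * μ * s r
      + I * (δ r : ℂ) * s r + T0 r) := by
  have hR := H.R2_pos
  have hn := H.sys.n_pos
  have hd : ∀ r ∈ Ioo 0 R2, HasDerivAt
      (fun x : ℝ => ((x ^ n : ℝ) : ℂ) * t1 x + I * (((x ^ (n + 1) * w x : ℝ) : ℂ) * s x))
      (((r ^ n : ℝ) : ℂ) * (((V r + P r : ℝ) : ℂ) * t r - I * μ * s r
      + I * (δ r : ℂ) * s r + T0 r)) r := by
    intro r hr
    have h1 := H.sys.et r hr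
    have h2 := ((H.sys.dw r hr).ofReal_comp).mul (H.sys.ds r hr)
    have h3 := h1.add (h2.const_mul I)
    refine h3.congr_deriv ?_
    simp only [dil]
    push_cast
    ring
  have hp : ContinuousOn (fun r : ℝ => ((r ^ n : ℝ) : ℂ)) (Icc 0 R2) :=
    Complex.continuous_ofReal.comp_continuousOn (continuousOn_id.pow n)
  have hc1 : ContinuousOn (fun x : ℝ => ((x ^ n : ℝ) : ℂ) * t1 x +
      I * (((x ^ (n + 1) * w x : ℝ) : ℂ) * s x)) (Icc 0 R2) := by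
    refine (hp.mul H.sys.ct1).add (continuousOn_const.mul ?_)
    refine ContinuousOn.mul ?_ H.sys.cs
    exact Complex.continuous_ofReal.comp_continuousOn ((continuousOn_id.pow (n + 1)).mul H.sys.cw)
  have hc2 : ContinuousOn (fun r : ℝ => ((r ^ n : ℝ) : ℂ) * (((V r + P r : ℝ) : ℂ) * t r - I * μ * s r
      + I * (δ r : ℂ) * s r + T0 r)) (Icc 0 R2) := by
    refine hp.mul ?_
    refine ((ContinuousOn.sub ?_ ?_).add ?_).add H.sys.cT0
    · exact (Complex.continuous_ofReal.comp_continuousOn (H.sys.cV.add H.sys.cP)).mul H.sys.ct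
    · exact continuousOn_const.mul H.sys.cs
    · exact (continuousOn_const.mul (Complex.continuous_ofReal.comp_continuousOn H.sys.cδ)).mul
        H.sys.cs
  have hi : IntervalIntegrable (fun r : ℝ => ((r ^ n : ℝ) : ℂ) * (((V r + P r : ℝ) : ℂ) * t r - I * μ * s r
      + I * (δ r : ℂ) * s r + T0 r)) volume 0 R2 := by
    rw [← uIcc_of_le hR.le] at hc2
    exact hc2.intervalIntegrable
  rw [intervalIntegral.integral_eq_sub_of_hasDerivAt_of_le hR.le hc1 hd hi]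
  simp [Nat.one_le_iff_ne_zero.mp hn]

/-- Bound of `t'` at the outer end. -/
lemma t1_le : R2 ^ n * ‖t1 R2‖ ≤ C * R2 ^ n * ‖s R2‖
    + (∫ r in (0 : ℝ)..R2, r ^ n * (|V r + P r| * ‖t r‖))
    + 2 * C * (∫ r in (0 : ℝ)..R2, r ^ n * ‖s r‖)
    + ∫ r in (0 : ℝ)..R2, r ^ n * ‖T0 r‖ := by
  have hR := H.R2_pos
  have hC := H.C_pos
  have hRn : 0 ≤ R2 ^ n := by positivity
  have hmem : R2 ∈ Icc 0 R2 := ⟨hR.le, le_rfl⟩
  have hflux := H.flux_t
  have hc : ∀ {f : ℝ → ℝ}, ContinuousOn f (Icc 0 R2) →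
      IntervalIntegrable (fun r => r ^ n * f r) volume 0 R2 := fun hf =>
    GSys.integrableOn_cont hR.le ((continuousOn_id.pow n).mul hf)
  have i1 : IntervalIntegrable (fun r => r ^ n * (|V r + P r| * ‖t r‖)) volume 0 R2 :=
    hc ((H.sys.cV.add H.sys.cP).abs.mul H.sys.ct.norm)
  have i2 : IntervalIntegrable (fun r => r ^ n * ‖s r‖) volume 0 R2 := hc H.sys.cs.norm
  have i3 : IntervalIntegrable (fun r => r ^ n * ‖T0 r‖) volume 0 R2 := hc H.sys.cT0.norm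
  have hbd : ‖∫ r in (0 : ℝ)..R2, ((r ^ n : ℝ) : ℂ) * (((V r + P r : ℝ) : ℂ) * t r - I * μ * s r
      + I * (δ r : ℂ) * s r + T0 r)‖ ≤
      ∫ r in (0 : ℝ)..R2, (r ^ n * (|V r + P r| * ‖t r‖) + 2 * C * (r ^ n * ‖s r‖)
        + r ^ n * ‖T0 r‖) := by
    apply intervalIntegral.norm_integral_le_of_norm_le hR.le
    · filter_upwards with r hr
      have hr' : r ∈ Icc 0 R2 := ⟨hr.1.le, hr.2⟩
      have hrn : 0 ≤ r ^ n := pow_nonneg hr.1.le n
      rw [norm_mul, Complex.norm_real, Real.norm_eq_abs, abs_of_nonneg hrn]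
      have e1 : ‖((V r + P r : ℝ) : ℂ) * t r - I * μ * s r + I * (δ r : ℂ) * s r + T0 r‖ ≤
          |V r + P r| * ‖t r‖ + 2 * C * ‖s r‖ + ‖T0 r‖ := by
        have f1 : ‖((V r + P r : ℝ) : ℂ) * t r‖ = |V r + P r| * ‖t r‖ := by
          rw [norm_mul, Complex.norm_real, Real.norm_eq_abs]
        have f2 : ‖I * μ * s r‖ ≤ C * ‖s r‖ := by
          rw [norm_mul, norm_mul, Complex.norm_I, one_mul]
          exact mul_le_mul_of_nonneg_right H.hμ (norm_nonneg _)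
        have f3 : ‖I * (δ r : ℂ) * s r‖ ≤ C * ‖s r‖ := by
          rw [norm_mul, norm_mul, Complex.norm_I, one_mul, Complex.norm_real]
          exact mul_le_mul_of_nonneg_right (H.hδ r hr') (norm_nonneg _)
        have g1 := norm_add_le (((V r + P r : ℝ) : ℂ) * t r - I * μ * s r + I * (δ r : ℂ) * s r) (T0 r)
        have g2 := norm_add_le (((V r + P r : ℝ) : ℂ) * t r - I * μ * s r) (I * (δ r : ℂ) * s r)
        have g3 := norm_sub_le (((V r + P r : ℝ) : ℂ) * t r) (I * μ * s r)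
        linarith
      calc _ ≤ r ^ n * (|V r + P r| * ‖t r‖ + 2 * C * ‖s r‖ + ‖T0 r‖) :=
            mul_le_mul_of_nonneg_left e1 hrn
        _ = _ := by ring
    · exact (i1.add (i2.const_mul _)).add i3
  rw [intervalIntegral.integral_add (i1.add (i2.const_mul _)) i3,
    intervalIntegral.integral_add i1 (i2.const_mul _), intervalIntegral.integral_const_mul] at hbd
  rw [← hflux] at hbd
  have h1 : ‖((R2 ^ n : ℝ) : ℂ) * t1 R2‖ = R2 ^ n * ‖t1 R2‖ := by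
    rw [norm_mul, Complex.norm_real, Real.norm_eq_abs, abs_of_nonneg hRn]
  have h2 : ‖I * (((R2 ^ (n + 1) * w R2 : ℝ) : ℂ) * s R2)‖ ≤ C * R2 ^ n * ‖s R2‖ := by
    rw [norm_mul, Complex.norm_I, one_mul, norm_mul, Complex.norm_real, Real.norm_eq_abs]
    apply mul_le_mul_of_nonneg_right _ (norm_nonneg _)
    have : R2 ^ (n + 1) * w R2 = R2 ^ n * (R2 * w R2) := by ring
    rw [this, abs_mul, abs_of_nonneg hRn, mul_comm C]
    exact mul_le_mul_of_nonneg_left (H.hw R2 hmem) hRn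
  have h3 : ‖((R2 ^ n : ℝ) : ℂ) * t1 R2‖ ≤
      ‖((R2 ^ n : ℝ) : ℂ) * t1 R2 + I * (((R2 ^ (n + 1) * w R2 : ℝ) : ℂ) * s R2)‖ +
      ‖I * (((R2 ^ (n + 1) * w R2 : ℝ) : ℂ) * s R2)‖ := by
    have := norm_sub_le (((R2 ^ n : ℝ) : ℂ) * t1 R2 + I * (((R2 ^ (n + 1) * w R2 : ℝ) : ℂ) * s R2))
      (I * (((R2 ^ (n + 1) * w R2 : ℝ) : ℂ) * s R2))
    simpa using this
  rw [h1] at h3
  linarith

lemma ivpt_sq : (∫ r in (0 : ℝ)..R2, r ^ n * (|V r + P r| * ‖t r‖)) ^ 2 ≤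
    R2 ^ (n + 1) * (2 * C * ∫ r in (0 : ℝ)..R2, r ^ n * (|V r + P r| * ‖t r‖ ^ 2)) := by
  have hR := H.R2_pos
  have hC := H.C_pos
  have hc : ContinuousOn (fun r => |V r + P r| * ‖t r‖) (Icc 0 R2) :=
    (H.sys.cV.add H.sys.cP).abs.mul H.sys.ct.norm
  have h1 := sq_int_weight_le (n := n) hR.le hc
  refine h1.trans ?_
  apply mul_le_mul_of_nonneg_left _ (by positivity)
  rw [← intervalIntegral.integral_const_mul]
  apply intervalIntegral.integral_mono_on hR.le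
  · exact GSys.integrableOn_cont hR.le ((continuousOn_id.pow n).mul (hc.pow 2))
  · exact (GSys.integrableOn_cont hR.le H.sys.c_rVPt).const_mul _
  · intro r hr
    have f1 := H.hV r hr
    have f2 := H.hP0 r hr
    have f3 := H.hPC r hr
    have e2 : |V r + P r| ≤ 2 * C := by
      rw [abs_le] at f1 ⊢
      constructor <;> linarith
    have hrn : 0 ≤ r ^ n := pow_nonneg hr.1 n
    have e3 : 0 ≤ r ^ n * (|V r + P r| * ‖t r‖ ^ 2) := by positivity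
    calc r ^ n * (|V r + P r| * ‖t r‖) ^ 2 = |V r + P r| * (r ^ n * (|V r + P r| * ‖t r‖ ^ 2)) := by
          ring
      _ ≤ _ := mul_le_mul_of_nonneg_right e2 e3

/-- The a priori bounds obtained from `closed`. -/
lemma closed' {X κ ε' K B : ℝ} (hκ : κ = 2 ^ n) (hX1 : 1 ≤ X) (hpow : ∀ k : ℕ, k ≤ 2 * n + 2 → R2 ^ k ≤ X)
    (hε' : ε' = 1 / (64 * X)) (hK : K = C + 2 * C ^ 2 + 8 * C ^ 2 / ε' + 1 / 2)
    (hB : B = (2 + C) * X + 4 * ε' * X + 8 * C * κ * X + 1 / 2 + ε' / 2)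
    (hη1 : η ≤ 1) (hε1' : ε1 ≤ ε') (hη2 : η ≤ 1 / (24 * K * κ)) (hη3 : η ≤ 1 / (128 * C * κ))
    (hq : K * ((1 + 4 * κ) / c0) ≤ q / 2) :
    (∫ r in (0 : ℝ)..R2, r ^ n * ‖s1 r‖ ^ 2) ≤ 2 * B ∧
    (∫ r in (0 : ℝ)..R2, r ^ n * ‖t1 r‖ ^ 2) ≤ 4 * B ∧
    (∫ r in (0 : ℝ)..R2, r ^ n * (P r * ‖s r‖ ^ 2)) ≤ 2 * B / q := by
  have hC := H.C_pos
  have hX0 : 0 < X := by linarith
  have hη := H.η_pos
  have hε'0 : 0 < ε' := by rw [hε']; positivity
  have hK0 : 0 < K := by rw [hK]; positivity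
  have hκ0 : 0 < κ := by rw [hκ]; positivity
  have hηsq : η ^ 2 ≤ η := by nlinarith
  have c2 : 12 * K * κ * η ^ 2 ≤ 1 / 2 := by
    rw [le_div_iff₀ (by positivity)] at hη2
    have : 12 * K * κ * η ^ 2 ≤ 12 * K * κ * η := mul_le_mul_of_nonneg_left hηsq (by positivity)
    nlinarith
  have c3 : 16 * C * κ * η ^ 2 ≤ 1 / 8 := by
    rw [le_div_iff₀ (by positivity)] at hη3
    have : 16 * C * κ * η ^ 2 ≤ 16 * C * κ * η := mul_le_mul_of_nonneg_left hηsq (by positivity)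
    nlinarith
  have c1 : ε' * (64 * R2 ^ 2) ≤ 1 := by
    have e1 : R2 ^ 2 ≤ X := hpow 2 (by omega)
    rw [hε', div_mul_eq_mul_div, one_mul, div_le_one (by positivity)]
    linarith
  have hRn := hpow n (by omega)
  have hRn1 := hpow (n + 1) (by omega)
  subst hκ
  subst hK
  have hclosed := H.closed ε' hε'0 hε1' c1 hη1 c2 c3 hq
  have hs := H.ns_nonneg
  have ht := H.nt_nonneg
  have hp := H.pi_nonneg
  have hqp := H.q_pos
  generalize (∫ r in (0 : ℝ)..R2, r ^ n * ‖s1 r‖ ^ 2) = Ns at *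
  generalize (∫ r in (0 : ℝ)..R2, r ^ n * ‖t1 r‖ ^ 2) = Nt at *
  generalize (∫ r in (0 : ℝ)..R2, r ^ n * (P r * ‖s r‖ ^ 2)) = Pi at *
  have hsum : 1 / 2 * Ns + 1 / 4 * Nt + q / 2 * Pi ≤ B := by
    refine hclosed.trans ?_
    rw [hB]
    have e1 : (2 + C) * R2 ^ n ≤ (2 + C) * X := mul_le_mul_of_nonneg_left hRn (by positivity)
    have e2 : 4 * ε' * R2 ^ (n + 1) ≤ 4 * ε' * X := mul_le_mul_of_nonneg_left hRn1 (by positivity)
    have e3 : 8 * C * 2 ^ n * R2 ^ n ≤ 8 * C * 2 ^ n * X :=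
      mul_le_mul_of_nonneg_left hRn (by positivity)
    linarith
  have hqPi : 0 ≤ q / 2 * Pi := by positivity
  refine ⟨by linarith, by linarith, ?_⟩
  rw [le_div_iff₀ hqp]
  linarith

/-- Bound of `s` at the outer end. -/
lemma s_bound {B Rm : ℝ} (hRm : 0 < Rm) (hR1 : Rm ≤ R2) (hB0 : 0 < B)
    (hNs : (∫ r in (0 : ℝ)..R2, r ^ n * ‖s1 r‖ ^ 2) ≤ 2 * B)
    (hPi : (∫ r in (0 : ℝ)..R2, r ^ n * (P r * ‖s r‖ ^ 2)) ≤ 2 * B / q) :
    ‖s R2‖ ^ 2 ≤ (2 / Rm) ^ n * (4 * B / c0 + 12 * B) * (η + 1 / (η * q)) := by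
  have hη := H.η_pos
  have hc0 := H.c0_pos
  have hqp := H.q_pos
  have hb := H.half_le
  have hsx := H.sys.sup_s_le hη (by linarith [H.η6, H.R2_pos]) hc0 H.hP0 H.hPc
    (x := R2) ⟨by linarith, le_rfl⟩
  generalize (∫ r in (0 : ℝ)..R2, r ^ n * ‖s1 r‖ ^ 2) = Ns at *
  generalize (∫ r in (0 : ℝ)..R2, r ^ n * (P r * ‖s r‖ ^ 2)) = Pi at *
  have e1 : (Rm / 2) ^ n ≤ (R2 - 3 * η) ^ n := by
    apply pow_le_pow_left₀ (by positivity)
    linarith
  have hinv : 0 < 1 / (η * q) := by positivity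
  have e2 : (Rm / 2) ^ n * ‖s R2‖ ^ 2 ≤ (4 * B / c0 + 12 * B) * (η + 1 / (η * q)) := by
    have f1 : (Rm / 2) ^ n * ‖s R2‖ ^ 2 ≤ (R2 - 3 * η) ^ n * ‖s R2‖ ^ 2 :=
      mul_le_mul_of_nonneg_right e1 (sq_nonneg _)
    have f2 : 2 / (η * c0) * Pi ≤ 2 / (η * c0) * (2 * B / q) :=
      mul_le_mul_of_nonneg_left hPi (by positivity)
    have f3 : 2 / (η * c0) * (2 * B / q) = 4 * B / c0 * (1 / (η * q)) := by
      field_simp; ring
    have f4 : 6 * η * Ns ≤ 12 * B * η := by nlinarith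
    have f5 : 0 ≤ 4 * B / c0 * η := by positivity
    have f6 : 0 ≤ 12 * B * (1 / (η * q)) := by positivity
    linarith
  have e3 : (2 / Rm) ^ n * (Rm / 2) ^ n = 1 := by
    rw [← mul_pow]
    have : 2 / Rm * (Rm / 2) = 1 := by field_simp
    rw [this, one_pow]
  calc ‖s R2‖ ^ 2 = (2 / Rm) ^ n * ((Rm / 2) ^ n * ‖s R2‖ ^ 2) := by
        rw [← mul_assoc, e3, one_mul]
    _ ≤ (2 / Rm) ^ n * ((4 * B / c0 + 12 * B) * (η + 1 / (η * q))) :=
      mul_le_mul_of_nonneg_left e2 (by positivity)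
    _ = _ := by ring

/-- Bound of the `L^2` norm of `s`. -/
lemma z_bound {κ B : ℝ} (hκ : κ = 2 ^ n) (hB0 : 0 < B) (hη1 : η ≤ 1)
    (hNs : (∫ r in (0 : ℝ)..R2, r ^ n * ‖s1 r‖ ^ 2) ≤ 2 * B)
    (hPi : (∫ r in (0 : ℝ)..R2, r ^ n * (P r * ‖s r‖ ^ 2)) ≤ 2 * B / q) :
    (∫ r in (0 : ℝ)..R2, r ^ n * ‖s r‖ ^ 2) ≤
      ((1 + 4 * κ) / c0 * (2 * B) + 24 * κ * B) * (η + 1 / (η * q)) := by
  have hη := H.η_pos
  have hc0 := H.c0_pos
  have hqp := H.q_pos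
  have hs := H.ns_nonneg
  have hκ0 : 0 < κ := by rw [hκ]; positivity
  have hz := H.z_le
  rw [← hκ] at hz
  refine hz.trans ?_
  generalize (∫ r in (0 : ℝ)..R2, r ^ n * ‖s1 r‖ ^ 2) = Ns at *
  generalize (∫ r in (0 : ℝ)..R2, r ^ n * (P r * ‖s r‖ ^ 2)) = Pi at *
  have hinv : 0 < 1 / (η * q) := by positivity
  have hηsq : η ^ 2 ≤ η := by nlinarith
  have f1 : (1 + 4 * κ) / c0 * Pi ≤ (1 + 4 * κ) / c0 * (2 * B) * (η + 1 / (η * q)) := by
    have g1 : Pi ≤ 2 * B * (η + 1 / (η * q)) := by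
      refine hPi.trans ?_
      have g2 : 1 / q ≤ 1 / (η * q) := by
        apply one_div_le_one_div_of_le (by positivity)
        nlinarith
      have g3 : 2 * B / q = 2 * B * (1 / q) := by ring
      rw [g3]
      apply mul_le_mul_of_nonneg_left _ (by positivity)
      linarith
    calc _ ≤ (1 + 4 * κ) / c0 * (2 * B * (η + 1 / (η * q))) :=
          mul_le_mul_of_nonneg_left g1 (by positivity)
      _ = _ := by ring
  have f2 : 12 * κ * η ^ 2 * Ns ≤ 24 * κ * B * (η + 1 / (η * q)) := by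
    have g1 : η ^ 2 * Ns ≤ (η + 1 / (η * q)) * (2 * B) := by
      apply mul_le_mul _ hNs hs (by positivity)
      linarith
    calc 12 * κ * η ^ 2 * Ns = 12 * κ * (η ^ 2 * Ns) := by ring
      _ ≤ 12 * κ * ((η + 1 / (η * q)) * (2 * B)) := mul_le_mul_of_nonneg_left g1 (by positivity)
      _ = _ := by ring
  calc _ ≤ _ := add_le_add f1 f2
    _ = _ := by ring

end

end InnerHyp

end Vale.Agent.P139.H311
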