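import Vale.Agent.P139.H311.CoreE

/-!
Block (B), part 6: the final inner estimate.
-/

open MeasureTheory Set Complex

namespace Vale.Agent.P139.H311

namespace InnerHyp

variable {n : ℕ} {R2 q : ℝ} {P V w δ : ℝ → ℝ} {μ : ℂ} {s t s1 t1 S0 T0 : ℝ → ℂ}
  {C c0 ε1 η : ℝ}

section

variable (H : InnerHyp n R2 q P V w δ μ s t s1 t1 S0 T0 C c0 ε1 η)
include H

/-- Bound of the `L^2` norm of `t`. -/
lemma tt_bound {X B : ℝ} (hX1 : 1 ≤ X) (hpow : ∀ k : ℕ, k ≤ 2 * n + 2 → R2 ^ k ≤ X)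
    (hNt : (∫ r in (0 : ℝ)..R2, r ^ n * ‖t1 r‖ ^ 2) ≤ 4 * B) :
    (∫ r in (0 : ℝ)..R2, r ^ n * ‖t r‖ ^ 2) ≤ 2 * X + 4 * X * (4 * B) := by
  have htt := H.tt_le
  have ht := H.nt_nonneg
  have hRn1 := hpow (n + 1) (by omega)
  have hR22 := hpow 2 (by omega)
  generalize (∫ r in (0 : ℝ)..R2, r ^ n * ‖t1 r‖ ^ 2) = Nt at *
  have f1 : 4 * R2 ^ 2 * Nt ≤ 4 * X * (4 * B) := by
    apply mul_le_mul _ hNt ht (by positivity)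
    linarith
  linarith

/-- Bound of the potential term. -/
lemma vpt_bound {X B κ : ℝ} (hκ : κ = 2 ^ n) (hX1 : 1 ≤ X)
    (hpow : ∀ k : ℕ, k ≤ 2 * n + 2 → R2 ^ k ≤ X) (hB0 : 0 < B) (hη1 : η ≤ 1)
    (hNt : (∫ r in (0 : ℝ)..R2, r ^ n * ‖t1 r‖ ^ 2) ≤ 4 * B) :
    (∫ r in (0 : ℝ)..R2, r ^ n * (|V r + P r| * ‖t r‖ ^ 2)) ≤
      (2 * X + 4 * X * (4 * B) + 4 * C * κ * (2 * X + 16 * B)) * (ε1 + η) := by
  have hC := H.C_pos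
  have hη := H.η_pos
  have hε10 := H.ε1_nonneg
  have ht := H.nt_nonneg
  have hκ0 : 0 < κ := by rw [hκ]; positivity
  have hTB := H.tt_bound hX1 hpow hNt
  have hvpt := H.vpt_le
  have hRn := hpow n (by omega)
  rw [← hκ] at hvpt
  refine hvpt.trans ?_
  generalize (∫ r in (0 : ℝ)..R2, r ^ n * ‖t1 r‖ ^ 2) = Nt at *
  generalize (∫ r in (0 : ℝ)..R2, r ^ n * ‖t r‖ ^ 2) = T at *
  have hX0 : 0 < X := by linarith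
  have f1 : ε1 * T ≤ ε1 * (2 * X + 4 * X * (4 * B)) := mul_le_mul_of_nonneg_left hTB hε10
  have f2 : 4 * C * κ * η * (2 * R2 ^ n + 4 * η * Nt) ≤ 4 * C * κ * (2 * X + 16 * B) * η := by
    have g1 : η * Nt ≤ 1 * (4 * B) := mul_le_mul hη1 hNt ht (by norm_num)
    have g2 : 2 * R2 ^ n + 4 * η * Nt ≤ 2 * X + 16 * B := by linarith
    calc _ ≤ 4 * C * κ * η * (2 * X + 16 * B) := mul_le_mul_of_nonneg_left g2 (by positivity)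
      _ = _ := by ring
  have f5 : 0 ≤ 4 * C * κ * (2 * X + 16 * B) * ε1 := by positivity
  have f6 : 0 ≤ (2 * X + 4 * X * (4 * B)) * η := by positivity
  linarith

/-- Bound of `t'` at the outer end. -/
lemma t1_bound {X B κ Rm M1 M2 M4 E : ℝ} (hκ : κ = 2 ^ n) (hX1 : 1 ≤ X)
    (hpow : ∀ k : ℕ, k ≤ 2 * n + 2 → R2 ^ k ≤ X) (hB0 : 0 < B) (hη1 : η ≤ 1) (hε11 : ε1 ≤ 1)
    (hRm : 0 < Rm) (hR1 : Rm ≤ R2)
    (hNt : (∫ r in (0 : ℝ)..R2, r ^ n * ‖t1 r‖ ^ 2) ≤ 4 * B)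
    (hM1 : 0 < M1) (hM2 : 0 < M2) (hM4 : M4 = 2 * X + 4 * X * (4 * B) + 4 * C * κ * (2 * X + 16 * B))
    (hηE : η ≤ E)
    (hsB : ‖s R2‖ ^ 2 ≤ M1 * E) (hZB : (∫ r in (0 : ℝ)..R2, r ^ n * ‖s r‖ ^ 2) ≤ M2 * E) :
    ‖t1 R2‖ ^ 2 ≤ (1 / Rm ^ n) ^ 2 * (4 * (X * C ^ 2 * M1 + 2 * C * X * M4 + 4 * C ^ 2 * X * M2 + X))
      * (ε1 + E) := by
  have hC := H.C_pos
  have hR := H.R2_pos
  have hη := H.η_pos
  have hε10 := H.ε1_nonneg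
  have hE0 : 0 < E := by linarith
  have hX0 : 0 < X := by linarith
  have hκ0 : 0 < κ := by rw [hκ]; positivity
  have hVB := H.vpt_bound hκ hX1 hpow hB0 hη1 hNt
  rw [← hM4] at hVB
  have hM40 : 0 < M4 := by rw [hM4]; positivity
  have ht1 := H.t1_le
  have hiv := H.ivpt_sq
  have his := sq_int_weight_le (n := n) hR.le H.sys.cs.norm
  have hiT := sq_int_weight_le (n := n) hR.le H.sys.cT0.norm
  have hT0 := H.hT0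
  have hZ0' : 0 ≤ ∫ r in (0 : ℝ)..R2, r ^ n * ‖s r‖ ^ 2 := by
    apply intervalIntegral.integral_nonneg hR.le
    intro r hr
    have := hr.1
    positivity
  have hT00 : 0 ≤ ∫ r in (0 : ℝ)..R2, r ^ n * ‖T0 r‖ ^ 2 := by
    apply intervalIntegral.integral_nonneg hR.le
    intro r hr
    have := hr.1
    positivity
  have hRn1 := hpow (n + 1) (by omega)
  have hR2n := hpow (2 * n) (by omega)
  have hRnn : 0 ≤ R2 ^ n := by positivity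
  have hRn1n : 0 ≤ R2 ^ (n + 1) := by positivity
  have hVp0 : 0 ≤ ∫ r in (0 : ℝ)..R2, r ^ n * (|V r + P r| * ‖t r‖ ^ 2) := by
    apply intervalIntegral.integral_nonneg hR.le
    intro r hr
    have := hr.1
    positivity
  generalize (∫ r in (0 : ℝ)..R2, r ^ n * ‖t1 r‖ ^ 2) = Nt at *
  generalize (∫ r in (0 : ℝ)..R2, r ^ n * ‖s r‖ ^ 2) = Z at *
  generalize (∫ r in (0 : ℝ)..R2, r ^ n * (|V r + P r| * ‖t r‖ ^ 2)) = VPt at *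
  generalize (∫ r in (0 : ℝ)..R2, r ^ n * (|V r + P r| * ‖t r‖)) = J1 at *
  generalize (∫ r in (0 : ℝ)..R2, r ^ n * ‖s r‖) = J2 at *
  generalize (∫ r in (0 : ℝ)..R2, r ^ n * ‖T0 r‖) = J3 at *
  generalize (∫ r in (0 : ℝ)..R2, r ^ n * ‖T0 r‖ ^ 2) = J4 at *
  have hJ1 : J1 ^ 2 ≤ 2 * C * X * M4 * (ε1 + E) := by
    have e1 : VPt ≤ M4 * (ε1 + E) := hVB.trans (mul_le_mul_of_nonneg_left (by linarith) hM40.le)
    calc J1 ^ 2 ≤ _ := hiv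
      _ ≤ X * (2 * C * (M4 * (ε1 + E))) := by
        apply mul_le_mul hRn1 _ (by positivity) hX0.le
        exact mul_le_mul_of_nonneg_left e1 (by positivity)
      _ = _ := by ring
  have hJ2 : J2 ^ 2 ≤ X * M2 * E := by
    calc J2 ^ 2 ≤ _ := his
      _ ≤ X * (M2 * E) := mul_le_mul hRn1 hZB hZ0' hX0.le
      _ = _ := by ring
  have hJ3 : J3 ^ 2 ≤ X * ε1 := by
    calc J3 ^ 2 ≤ _ := hiT
      _ ≤ X * ε1 := by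
        apply mul_le_mul hRn1 _ hT00 hX0.le
        refine hT0.trans ?_
        nlinarith
  have hA2 : (C * R2 ^ n * ‖s R2‖) ^ 2 ≤ X * C ^ 2 * M1 * E := by
    have e1 : (C * R2 ^ n * ‖s R2‖) ^ 2 = C ^ 2 * (R2 ^ (2 * n) * ‖s R2‖ ^ 2) := by
      ring
    rw [e1]
    have e2 : R2 ^ (2 * n) * ‖s R2‖ ^ 2 ≤ X * (M1 * E) :=
      mul_le_mul hR2n hsB (sq_nonneg _) hX0.le
    calc _ ≤ C ^ 2 * (X * (M1 * E)) := mul_le_mul_of_nonneg_left e2 (by positivity)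
      _ = _ := by ring
  have h0 : 0 ≤ R2 ^ n * ‖t1 R2‖ := by positivity
  generalize (C * R2 ^ n * ‖s R2‖) = A at *
  have e1 : (R2 ^ n * ‖t1 R2‖) ^ 2 ≤ (A + J1 + 2 * C * J2 + J3) ^ 2 :=
    pow_le_pow_left₀ h0 ht1 2
  have e2 : (A + J1 + 2 * C * J2 + J3) ^ 2 ≤ 4 * (A ^ 2 + J1 ^ 2 + (2 * C * J2) ^ 2 + J3 ^ 2) := by
    nlinarith [sq_nonneg (A - J1), sq_nonneg (A - 2 * C * J2), sq_nonneg (A - J3),
      sq_nonneg (J1 - 2 * C * J2), sq_nonneg (J1 - J3), sq_nonneg (2 * C * J2 - J3)]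
  have e3 : (2 * C * J2) ^ 2 ≤ 4 * C ^ 2 * X * M2 * E := by
    calc (2 * C * J2) ^ 2 = 4 * C ^ 2 * J2 ^ 2 := by ring
      _ ≤ 4 * C ^ 2 * (X * M2 * E) := mul_le_mul_of_nonneg_left hJ2 (by positivity)
      _ = _ := by ring
  have e4 : (R2 ^ n * ‖t1 R2‖) ^ 2 ≤
      (4 * (X * C ^ 2 * M1 + 2 * C * X * M4 + 4 * C ^ 2 * X * M2 + X)) * (ε1 + E) := by
    have g1 : 0 ≤ X * C ^ 2 * M1 * ε1 := by positivity
    have g2 : 0 ≤ 4 * C ^ 2 * X * M2 * ε1 := by positivity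
    have g3 : 0 ≤ X * E := by positivity
    linarith
  have e5 : (Rm ^ n) ^ 2 ≤ (R2 ^ n) ^ 2 := by
    apply pow_le_pow_left₀ (by positivity)
    exact pow_le_pow_left₀ hRm.le hR1 n
  have e6 : (Rm ^ n) ^ 2 * ‖t1 R2‖ ^ 2 ≤
      (4 * (X * C ^ 2 * M1 + 2 * C * X * M4 + 4 * C ^ 2 * X * M2 + X)) * (ε1 + E) := by
    refine le_trans ?_ e4
    rw [mul_pow]
    exact mul_le_mul_of_nonneg_right e5 (sq_nonneg _)
  calc ‖t1 R2‖ ^ 2 = (1 / Rm ^ n) ^ 2 * ((Rm ^ n) ^ 2 * ‖t1 R2‖ ^ 2) := by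
        field_simp
    _ ≤ (1 / Rm ^ n) ^ 2 * ((4 * (X * C ^ 2 * M1 + 2 * C * X * M4 + 4 * C ^ 2 * X * M2 + X)) *
        (ε1 + E)) := mul_le_mul_of_nonneg_left e6 (by positivity)
    _ = _ := by ring

end

/-- **Inner estimate** : `s` and `t'` are small at the outer end of the layer. -/
theorem inner_bound (n : ℕ) {C c0 Rm RM : ℝ} (hC : 0 < C) (hc0 : 0 < c0) (hRm : 0 < Rm) :
    ∃ M > 0, ∃ κ0 > 0, ∃ q0 > 0, ∀ (R2 q : ℝ) (P V w δ : ℝ → ℝ) (μ : ℂ)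
      (s t s1 t1 S0 T0 : ℝ → ℂ) (ε1 η : ℝ), Rm ≤ R2 → R2 ≤ RM → ε1 ≤ κ0 → η ≤ κ0 → q0 ≤ q →
      InnerHyp n R2 q P V w δ μ s t s1 t1 S0 T0 C c0 ε1 η →
      ‖s R2‖ ^ 2 ≤ M * (η + 1 / (η * q)) ∧ ‖t1 R2‖ ^ 2 ≤ M * (ε1 + (η + 1 / (η * q))) ∧
      (∫ r in (0 : ℝ)..R2, r ^ n * ‖s r‖ ^ 2) ≤ M * (η + 1 / (η * q)) ∧
      (∫ r in (0 : ℝ)..R2, r ^ n * ‖t r‖ ^ 2) ≤ M ∧
      (∫ r in (0 : ℝ)..R2, r ^ n * ‖s1 r‖ ^ 2) ≤ M ∧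
      (∫ r in (0 : ℝ)..R2, r ^ n * ‖t1 r‖ ^ 2) ≤ M := by
  obtain ⟨X, hX⟩ : ∃ X : ℝ, X = (max 1 RM) ^ (2 * n + 2) := ⟨_, rfl⟩
  have hX1 : 1 ≤ X := by rw [hX]; exact one_le_pow₀ (le_max_left _ _)
  have hX0 : 0 < X := by linarith
  obtain ⟨ε', hε'⟩ : ∃ ε' : ℝ, ε' = 1 / (64 * X) := ⟨_, rfl⟩
  have hε'0 : 0 < ε' := by rw [hε']; positivity
  obtain ⟨K, hK⟩ : ∃ K : ℝ, K = C + 2 * C ^ 2 + 8 * C ^ 2 / ε' + 1 / 2 := ⟨_, rfl⟩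
  have hK0 : 0 < K := by rw [hK]; positivity
  obtain ⟨κ, hκ⟩ : ∃ κ : ℝ, κ = 2 ^ n := ⟨_, rfl⟩
  have hκ0 : 0 < κ := by rw [hκ]; positivity
  obtain ⟨κ0, hκ0'⟩ : ∃ κ0 : ℝ,
    κ0 = min (min 1 ε') (min (1 / (24 * K * κ)) (1 / (128 * C * κ))) := ⟨_, rfl⟩
  have hκ0pos : 0 < κ0 := by
    rw [hκ0']
    exact lt_min (lt_min one_pos hε'0) (lt_min (by positivity) (by positivity))
  obtain ⟨B, hB⟩ : ∃ B : ℝ, B = (2 + C) * X + 4 * ε' * X + 8 * C * κ * X + 1 / 2 + ε' / 2 :=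
    ⟨_, rfl⟩
  have hB0 : 0 < B := by rw [hB]; positivity
  obtain ⟨M1, hM1⟩ : ∃ M1 : ℝ, M1 = (2 / Rm) ^ n * (4 * B / c0 + 12 * B) := ⟨_, rfl⟩
  obtain ⟨M2, hM2⟩ : ∃ M2 : ℝ, M2 = (1 + 4 * κ) / c0 * (2 * B) + 24 * κ * B := ⟨_, rfl⟩
  obtain ⟨M3, hM3⟩ : ∃ M3 : ℝ, M3 = 2 * X + 4 * X * (4 * B) := ⟨_, rfl⟩
  obtain ⟨M4, hM4⟩ : ∃ M4 : ℝ,
    M4 = 2 * X + 4 * X * (4 * B) + 4 * C * κ * (2 * X + 16 * B) := ⟨_, rfl⟩
  obtain ⟨M5, hM5⟩ : ∃ M5 : ℝ, M5 = (1 / Rm ^ n) ^ 2 *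
    (4 * (X * C ^ 2 * M1 + 2 * C * X * M4 + 4 * C ^ 2 * X * M2 + X)) := ⟨_, rfl⟩
  have hM1' : 0 < M1 := by rw [hM1]; positivity
  have hM2' : 0 < M2 := by rw [hM2]; positivity
  have hM3' : 0 < M3 := by rw [hM3]; positivity
  have hM4' : 0 < M4 := by rw [hM4]; positivity
  have hM5' : 0 < M5 := by rw [hM5]; positivity
  refine ⟨M1 + M2 + M3 + M5 + 4 * B, by positivity, κ0, hκ0pos,
    2 * (K * ((1 + 4 * κ) / c0)), by positivity, ?_⟩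
  intro R2 q P V w δ μ s t s1 t1 S0 T0 ε1 η hR1 hR2 hε1 hη0 hq H
  have hη := H.η_pos
  have hqp : 0 < q := H.q_pos
  have hpow : ∀ k : ℕ, k ≤ 2 * n + 2 → R2 ^ k ≤ X := by
    intro k hk
    rw [hX]
    calc R2 ^ k ≤ (max 1 RM) ^ k := pow_le_pow_left₀ H.R2_pos.le (hR2.trans (le_max_right _ _)) k
      _ ≤ (max 1 RM) ^ (2 * n + 2) := pow_le_pow_right₀ (le_max_left _ _) hk
  rw [hκ0'] at hε1 hη0
  have hη1 : η ≤ 1 := hη0.trans ((min_le_left _ _).trans (min_le_left _ _))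
  have hε11 : ε1 ≤ 1 := hε1.trans ((min_le_left _ _).trans (min_le_left _ _))
  have hε1' : ε1 ≤ ε' := hε1.trans ((min_le_left _ _).trans (min_le_right _ _))
  have hη2 : η ≤ 1 / (24 * K * κ) := hη0.trans ((min_le_right _ _).trans (min_le_left _ _))
  have hη3 : η ≤ 1 / (128 * C * κ) := hη0.trans ((min_le_right _ _).trans (min_le_right _ _))
  obtain ⟨hNs, hNt, hPi⟩ := H.closed' hκ hX1 hpow hε' hK hB hη1 hε1' hη2 hη3 (by linarith)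
  have hinv : 0 < 1 / (η * q) := by positivity
  have hE0 : 0 < η + 1 / (η * q) := by positivity
  have hsB := H.s_bound hRm hR1 hB0 hNs hPi
  rw [← hM1] at hsB
  have hZB := H.z_bound hκ hB0 hη1 hNs hPi
  rw [← hM2] at hZB
  have hTB := H.tt_bound hX1 hpow hNt
  rw [← hM3] at hTB
  have ht1B := H.t1_bound hκ hX1 hpow hB0 hη1 hε11 hRm hR1 hNt hM1' hM2' hM4
    (show η ≤ η + 1 / (η * q) by linarith) hsB hZB
  rw [← hM5] at ht1B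
  refine ⟨?_, ?_, ?_, ?_, ?_, ?_⟩
  · refine hsB.trans (mul_le_mul_of_nonneg_right ?_ hE0.le)
    linarith
  · refine ht1B.trans (mul_le_mul_of_nonneg_right ?_ (by linarith [H.ε1_nonneg]))
    linarith
  · refine hZB.trans (mul_le_mul_of_nonneg_right ?_ hE0.le)
    linarith
  · linarith
  · linarith
  · linarith

end InnerHyp

end Vale.Agent.P139.H311
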