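import Vale.Agent.P139.H311.Pair

/-!
Block S2: closed estimate for one radial pair, from the exterior model.
-/

noncomputable section

open scoped ComplexConjugate ContDiff Topology
open MeasureTheory Set Complex Filter

namespace Vale.Agent.P139.H311

open H741 BU

lemma le_of_forall_tau {x : ℝ} {f : ℝ → ℝ} (hf : Continuous f) (h : ∀ τ > 0, x ≤ f τ) :
    x ≤ f 0 := by
  have h1 : Tendsto f (𝓝[>] 0) (𝓝 (f 0)) := hf.continuousAt.tendsto.mono_left nhdsWithin_le_nhds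
  exact ge_of_tendsto h1 (eventually_nhdsWithin_of_forall h)

lemma hat_eq {l : ℕ} {u F : ℝ → ℂ} (hF : ∀ r : ℝ, 0 < r → F r = (r : ℂ) ^ l * u (r ^ 2)) {r : ℝ}
    (hr : 0 < r) : F r / (r : ℂ) ^ l = ev0 u r := by
  have hr0 : (r : ℂ) ^ l ≠ 0 := pow_ne_zero _ (by exact_mod_cast hr.ne')
  rw [hF r hr, mul_div_cancel_left₀ _ hr0]
  rfl

lemma hat_deriv {l : ℕ} {u F : ℝ → ℂ} (hu : ContDiff ℝ 2 u)
    (hF : ∀ r : ℝ, 0 < r → F r = (r : ℂ) ^ l * u (r ^ 2)) {r : ℝ}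
    (hr : 0 < r) : deriv (fun t : ℝ => F t / (t : ℂ) ^ l) r = ev1 u r := by
  have h1 : (fun t : ℝ => F t / (t : ℂ) ^ l) =ᶠ[𝓝 r] ev0 u := by
    filter_upwards [Ioi_mem_nhds hr] with t ht
    exact hat_eq hF ht
  rw [h1.deriv_eq, (hasDerivAt_ev0 hu r).deriv]

/-- Parameters and constants for one `m` and one `η`. -/
structure Par (d m l n : ℕ) (w0 R2 b : ℝ) (h : ℝ → ℂ) (C c0 Rm M κ0 q0 ε1 η εp L0 : ℝ) :
    Prop where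
  hI : InnerConst n C c0 Rm b M κ0 q0
  hM : 0 < M
  hq0 : 0 < q0
  hh : ContDiff ℝ 2 h
  hne : ∀ z : ℝ, 0 ≤ z → h z ≠ 0
  hd : 1 ≤ d
  hn : n + 1 = d + 2 * l
  hn1 : 1 ≤ n
  hm : 1 ≤ m
  hR2 : 0 < R2
  hRb : R2 ≤ b
  hB : ∀ lam : ℂ, ‖lam‖ ≤ L0 →
    CoefBd R2 (gP m h) (gV w0 h) (gw h) (gdel n h) (lam + aa m - (d : ℂ) / 4) C c0 ε1 η
  h1 : Rm ≤ R2
  h3 : ε1 ≤ κ0
  h4 : η ≤ κ0
  h5 : q0 ≤ 2 * m + 1
  hE : η + 1 / (η * (2 * m + 1)) ≤ 1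
  hεp : 0 ≤ εp
  hεp1 : εp ≤ 1
  hz : ‖1 - ep h R2‖ ≤ εp
  hψ : |th1 h R2| ≤ εp

/-- Closed estimate for one pair with source `(e1, e2)` and exterior model `(f, g)`. -/
theorem est_gen {d m l n : ℕ} {w0 R2 b : ℝ} {h : ℝ → ℂ} {C c0 Rm M κ0 q0 ε1 η εp L0 : ℝ}
    (hP : Par d m l n w0 R2 b h C c0 Rm M κ0 q0 ε1 η εp L0)
    {lam : ℂ} (hlam : ‖lam‖ ≤ L0) {q u v e1 e2 F G : ℝ → ℂ}
    (hu : ContDiff ℝ 2 u) (hv : ContDiff ℝ 2 v)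
    (he1 : Continuous e1) (he2 : Continuous e2)
    (hq : ∀ r : ℝ, 0 < r → q r = h (r ^ 2))
    (hF : ∀ r : ℝ, 0 < r → F r = (r : ℂ) ^ l * u (r ^ 2))
    (hG : ∀ r : ℝ, 0 < r → G r = (r : ℂ) ^ l * v (r ^ 2))
    (E1 : ∀ r : ℝ, 0 < r → RL1 d m l w0 q F G r = lam * F r + (r : ℂ) ^ l * e1 r)
    (E2 : ∀ r : ℝ, 0 < r → RL2 d m l w0 q F G r = lam * G r + (r : ℂ) ^ l * e2 r)
    {f f' g g' : ℝ → ℂ} {X Y Z ε' : ℝ} (hX : 0 ≤ X) (hY : 0 ≤ Y) (hZ : 0 ≤ Z) (hε' : 0 ≤ ε')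
    (hε'2 : ε' * Real.sqrt (16 * M + 2 * b ^ (n + 1)) ≤ 1 / 2)
    (hfX : ∀ r ∈ Icc R2 b, ‖f r‖ ≤ X ∧ ‖f' r‖ ≤ X ∧ ‖g r‖ ≤ X ∧ ‖g' r‖ ≤ X)
    (hcl : ∀ r ∈ Icc R2 b, ‖ev0 u r - f r‖ ≤ ε' * (nrm d b F G + Z) ∧
      ‖ev1 u r - f' r‖ ≤ ε' * (nrm d b F G + Z) ∧ ‖ev0 v r - g r‖ ≤ ε' * (nrm d b F G + Z) ∧
      ‖ev1 v r - g' r‖ ≤ ε' * (nrm d b F G + Z))
    (hS : ∫ r in (0 : ℝ)..R2, r ^ n * ‖gS0 h e1 e2 r‖ ^ 2 ≤ Y ^ 2)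
    (hT : ∫ r in (0 : ℝ)..R2, r ^ n * ‖gT0 h e1 e2 r‖ ^ 2 ≤ (ε1 * Y) ^ 2) :
    nrm d b F G ≤ 2 * Real.sqrt (16 * M + 2 * b ^ (n + 1)) * (X + Y + ε' * Z) ∧
    ‖f R2 + g R2‖ ≤ (4 * Real.sqrt (M * (ε1 + (η + 1 / (η * (2 * m + 1))))) + 4 * εp) *
      (2 * (X + Y + ε' * Z)) + 2 * (ε' * (nrm d b F G + Z)) ∧
    ‖f' R2 - g' R2‖ ≤ (4 * Real.sqrt (M * (ε1 + (η + 1 / (η * (2 * m + 1))))) + 4 * εp) *
      (2 * (X + Y + ε' * Z)) + 2 * (ε' * (nrm d b F G + Z)) ∧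
    (∫ r in (0 : ℝ)..R2, r ^ n * ‖gs h u v r‖ ^ 2) ≤
      16 * (2 * (X + Y + ε' * Z)) ^ 2 * (M * (η + 1 / (η * (2 * m + 1)))) ∧
    (∫ r in (0 : ℝ)..R2, r ^ n * ‖gt h u v r‖ ^ 2) ≤ 16 * (2 * (X + Y + ε' * Z)) ^ 2 * M := by
  have hO := gout (w0 := w0) (R2 := R2) hP.hh hP.hne hP.hn hP.hn1 hP.hm hP.hR2 hu hv
    he1.continuousOn he2.continuousOn hq hF hG (fun r hr => E1 r hr.1) (fun r hr => E2 r hr.1)
  have hB := hP.hB lam hlam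
  have hε10 := hB.ε1_nonneg
  set N := nrm d b F G with hN
  have hN0 : 0 ≤ N := nrm_nonneg _ _ _ _
  set C2 := Real.sqrt (16 * M + 2 * b ^ (n + 1)) with hC2
  have hC20 : 0 ≤ C2 := Real.sqrt_nonneg _
  -- the general application
  have app : ∀ A : ℝ, 0 < A → X + Y + ε' * (N + Z) ≤ A →
      N ≤ C2 * A ∧
      ‖ev0 u R2 + ev0 v R2‖ ≤
        (4 * Real.sqrt (M * (ε1 + (η + 1 / (η * (2 * m + 1))))) + 4 * εp) * A ∧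
      ‖ev1 u R2 - ev1 v R2‖ ≤
        (4 * Real.sqrt (M * (ε1 + (η + 1 / (η * (2 * m + 1))))) + 4 * εp) * A ∧
      (∫ r in (0 : ℝ)..R2, r ^ n * ‖gs h u v r‖ ^ 2) ≤
        16 * A ^ 2 * (M * (η + 1 / (η * (2 * m + 1)))) ∧
      (∫ r in (0 : ℝ)..R2, r ^ n * ‖gt h u v r‖ ^ 2) ≤ 16 * A ^ 2 * M := by
    intro A hA hle
    have hδ : 0 ≤ ε' * (N + Z) := by positivity
    have hbd : ∀ {x y : ℂ}, ‖x - y‖ ≤ ε' * (N + Z) → ‖y‖ ≤ X → ‖x‖ ≤ A := by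
      intro x y hxy hy
      calc ‖x‖ = ‖(x - y) + y‖ := by congr 1; ring
        _ ≤ ‖x - y‖ + ‖y‖ := norm_add_le _ _
        _ ≤ A := by linarith
    have hR2mem : R2 ∈ Icc R2 b := ⟨le_rfl, hP.hRb⟩
    have hYA : Y ≤ A := by linarith
    refine pair_est hP.hI hP.hM hP.hq0 hP.hh hP.hne hP.hd hP.hn hP.hRb hu hv hF hG hO hB hP.h1
      hP.hRb hP.h3 hP.h4 hP.h5 hP.hE hP.hεp hP.hεp1 hP.hz hP.hψ hA ?_ ?_ ?_ ?_
    · intro r hr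
      exact ⟨hbd (hcl r hr).1 (hfX r hr).1, hbd (hcl r hr).2.2.1 (hfX r hr).2.2.1⟩
    · exact ⟨hbd (hcl R2 hR2mem).2.1 (hfX R2 hR2mem).2.1,
        hbd (hcl R2 hR2mem).2.2.2 (hfX R2 hR2mem).2.2.2⟩
    · exact hS.trans (pow_le_pow_left₀ hY hYA 2)
    · exact hT.trans (pow_le_pow_left₀ (by positivity) (mul_le_mul_of_nonneg_left hYA hε10) 2)
  have hsum0 : 0 ≤ X + Y + ε' * (N + Z) := by positivity
  -- bound of the norm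
  have hN1 : N ≤ C2 * (X + Y + ε' * (N + Z)) := by
    have := le_of_forall_tau (x := N) (f := fun τ => C2 * (X + Y + ε' * (N + Z) + τ))
      (by fun_prop) (fun τ hτ => (app _ (by linarith) (by linarith)).1)
    simpa using this
  have hε'2' : C2 * ε' ≤ 1 / 2 := by rw [mul_comm]; exact hε'2
  have hN2 : N ≤ 2 * C2 * (X + Y + ε' * Z) := by
    have e1 : C2 * (X + Y + ε' * (N + Z)) = C2 * (X + Y + ε' * Z) + (C2 * ε') * N := by ring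
    have e2 : (C2 * ε') * N ≤ 1 / 2 * N := mul_le_mul_of_nonneg_right hε'2' hN0
    linarith
  have hA2 : X + Y + ε' * (N + Z) ≤ 2 * (X + Y + ε' * Z) := by
    have e1 : ε' * N ≤ ε' * (2 * C2 * (X + Y + ε' * Z)) := mul_le_mul_of_nonneg_left hN2 hε'
    have e2 : ε' * (2 * C2 * (X + Y + ε' * Z)) = (ε' * C2) * (2 * (X + Y + ε' * Z)) := by ring
    have e3 : (ε' * C2) * (2 * (X + Y + ε' * Z)) ≤ 1 / 2 * (2 * (X + Y + ε' * Z)) :=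
      mul_le_mul_of_nonneg_right hε'2 (by positivity)
    linarith
  have hpos : ∀ τ > 0, 0 < 2 * (X + Y + ε' * Z) + τ := by
    intro τ hτ
    have : 0 ≤ 2 * (X + Y + ε' * Z) := by positivity
    linarith
  have hle : ∀ τ > 0, X + Y + ε' * (N + Z) ≤ 2 * (X + Y + ε' * Z) + τ := by
    intro τ hτ; linarith
  set κ := 4 * Real.sqrt (M * (ε1 + (η + 1 / (η * (2 * m + 1))))) + 4 * εp with hκ
  have hR2mem : R2 ∈ Icc R2 b := ⟨le_rfl, hP.hRb⟩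
  refine ⟨hN2, ?_, ?_, ?_, ?_⟩
  · have k1 : ‖ev0 u R2 + ev0 v R2‖ ≤ κ * (2 * (X + Y + ε' * Z)) := by
      have := le_of_forall_tau (x := ‖ev0 u R2 + ev0 v R2‖)
        (f := fun τ => κ * (2 * (X + Y + ε' * Z) + τ))
        (by fun_prop) (fun τ hτ => (app _ (hpos τ hτ) (hle τ hτ)).2.1)
      simpa using this
    have k2 := (hcl R2 hR2mem).1
    have k3 := (hcl R2 hR2mem).2.2.1
    have e : f R2 + g R2 = (ev0 u R2 + ev0 v R2) - (ev0 u R2 - f R2) - (ev0 v R2 - g R2) := by ring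
    rw [e]
    have g1 := norm_sub_le ((ev0 u R2 + ev0 v R2) - (ev0 u R2 - f R2)) (ev0 v R2 - g R2)
    have g2 := norm_sub_le (ev0 u R2 + ev0 v R2) (ev0 u R2 - f R2)
    linarith
  · have k1 : ‖ev1 u R2 - ev1 v R2‖ ≤ κ * (2 * (X + Y + ε' * Z)) := by
      have := le_of_forall_tau (x := ‖ev1 u R2 - ev1 v R2‖)
        (f := fun τ => κ * (2 * (X + Y + ε' * Z) + τ))
        (by fun_prop) (fun τ hτ => (app _ (hpos τ hτ) (hle τ hτ)).2.2.1)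
      simpa using this
    have k2 := (hcl R2 hR2mem).2.1
    have k3 := (hcl R2 hR2mem).2.2.2
    have e : f' R2 - g' R2 = (ev1 u R2 - ev1 v R2) - (ev1 u R2 - f' R2) + (ev1 v R2 - g' R2) := by
      ring
    rw [e]
    have g1 := norm_add_le ((ev1 u R2 - ev1 v R2) - (ev1 u R2 - f' R2)) (ev1 v R2 - g' R2)
    have g2 := norm_sub_le (ev1 u R2 - ev1 v R2) (ev1 u R2 - f' R2)
    linarith
  · have := le_of_forall_tau (x := ∫ r in (0 : ℝ)..R2, r ^ n * ‖gs h u v r‖ ^ 2)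
      (f := fun τ => 16 * (2 * (X + Y + ε' * Z) + τ) ^ 2 * (M * (η + 1 / (η * (2 * m + 1)))))
      (by fun_prop) (fun τ hτ => (app _ (hpos τ hτ) (hle τ hτ)).2.2.2.1)
    simpa using this
  · have := le_of_forall_tau (x := ∫ r in (0 : ℝ)..R2, r ^ n * ‖gt h u v r‖ ^ 2)
      (f := fun τ => 16 * (2 * (X + Y + ε' * Z) + τ) ^ 2 * M)
      (by fun_prop) (fun τ hτ => (app _ (hpos τ hτ) (hle τ hτ)).2.2.2.2)
    simpa using this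

end Vale.Agent.P139.H311
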