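import Vale.Agent.P139.H311.Gen
import Vale.Agent.P139.H523.RadReg

/-!
Block S2: the key estimate (K) for a family of profiles.
-/

noncomputable section

open scoped ComplexConjugate ContDiff Topology
open MeasureTheory Set Complex Filter

namespace Vale.Agent.P139.H311

open H741 BU KU

/-- Coefficient bounds of the gauged system, for a family of profiles. -/
def CoefFam (d l : ℕ) (w R : ℕ → ℝ) (q : ℕ → ℝ → ℂ) (L0 : ℝ) : Prop :=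
  ∃ C > 0, ∃ c0 > 0, ∃ ηs > 0, ∀ ε > 0, ∀ η : ℝ, 0 < η → η ≤ ηs → ∃ m1 : ℕ, ∀ m, m1 ≤ m →
    ∀ lam : ℂ, ‖lam‖ ≤ L0 → ∀ h : ℝ → ℂ, ContDiff ℝ ∞ h → (∀ r, q m r = h (r ^ 2)) →
    CoefBd (R m + η) (gP m h) (gV (w m) h) (gw h) (gdel (d + 2 * l - 1) h)
      (lam + aa m - (d : ℂ) / 4) C c0 ε η

/-- The phase is close to zero at the outer end of the layer. -/
def PhaseFam (R : ℕ → ℝ) (q : ℕ → ℝ → ℂ) : Prop :=
  ∀ ε > 0, ∃ η0 > 0, ∀ η : ℝ, 0 < η → η ≤ η0 → ∃ m1 : ℕ, ∀ m, m1 ≤ m →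
    ∀ h : ℝ → ℂ, ContDiff ℝ ∞ h → (∀ r, q m r = h (r ^ 2)) →
    |th1 h (R m + η)| ≤ ε ∧ ‖1 - ep h (R m + η)‖ ≤ ε

/-- Exterior model: bounds in scale invariant form. -/
lemma ext_bounds' {d l : ℕ} {w : ℝ} {x x0 : ℂ} {r C : ℝ} (hC : 0 < C)
    (H : ∀ α α0 c : ℂ, ‖α0‖ ≤ 1 →
      ‖extF d l w x x0 α α0 c r‖ ≤ C * (‖α‖ + ‖c‖) ∧ ‖extF' d l w x x0 α α0 c r‖ ≤ C * (‖α‖ + ‖c‖) ∧
      ‖extG d l w x x0 α α0 c r‖ ≤ C * (‖α‖ + ‖c‖) ∧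
      ‖extG' d l w x x0 α α0 c r‖ ≤ C * (‖α‖ + ‖c‖))
    (α β α0 β0 c : ℂ) :
    ‖extF d l w x x0 α α0 c r‖ ≤ C * (‖α‖ + ‖β‖ + ‖c‖ * (‖α0‖ + ‖β0‖)) ∧
    ‖extF' d l w x x0 α α0 c r‖ ≤ C * (‖α‖ + ‖β‖ + ‖c‖ * (‖α0‖ + ‖β0‖)) ∧
    ‖extG d l w x x0 β β0 c r‖ ≤ C * (‖α‖ + ‖β‖ + ‖c‖ * (‖α0‖ + ‖β0‖)) ∧
    ‖extG' d l w x x0 β β0 c r‖ ≤ C * (‖α‖ + ‖β‖ + ‖c‖ * (‖α0‖ + ‖β0‖)) := by
  have h1 := H α 1 (c * α0) (by simp)
  have h2 := H β 1 (c * β0) (by simp)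
  have e1 : ∀ y : ℝ, ∀ z a : ℂ, (c * a * 1 : ℂ) * z = c * a * z := by intro y z a; ring
  have f1 : extF d l w x x0 α 1 (c * α0) r = extF d l w x x0 α α0 c r := by
    unfold extF; ring
  have f2 : extF' d l w x x0 α 1 (c * α0) r = extF' d l w x x0 α α0 c r := by
    unfold extF'; ring
  have f3 : extG d l w x x0 β 1 (c * β0) r = extG d l w x x0 β β0 c r := by
    unfold extG; ring
  have f4 : extG' d l w x x0 β 1 (c * β0) r = extG' d l w x x0 β β0 c r := by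
    unfold extG'; ring
  rw [f1, f2, norm_mul] at h1
  rw [f3, f4, norm_mul] at h2
  have n1 := norm_nonneg α
  have n2 := norm_nonneg β
  have n3 : 0 ≤ ‖c‖ * ‖α0‖ := by positivity
  have n4 : 0 ≤ ‖c‖ * ‖β0‖ := by positivity
  have k1 : C * (‖α‖ + ‖c‖ * ‖α0‖) ≤ C * (‖α‖ + ‖β‖ + ‖c‖ * (‖α0‖ + ‖β0‖)) := by
    apply mul_le_mul_of_nonneg_left _ hC.le
    linarith
  have k2 : C * (‖β‖ + ‖c‖ * ‖β0‖) ≤ C * (‖α‖ + ‖β‖ + ‖c‖ * (‖α0‖ + ‖β0‖)) := by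
    apply mul_le_mul_of_nonneg_left _ hC.le
    linarith
  exact ⟨h1.1.trans k1, h1.2.1.trans k1, h2.2.2.1.trans k2, h2.2.2.2.trans k2⟩

/-- Estimate for a pair `(F,G)` with source `c (φ,γ)`, fixed `m` and `η`. -/
theorem est_pair {d m l n : ℕ} {w0 R2 b : ℝ} {h : ℝ → ℂ} {C c0 Rm M κ0 q0 ε1 η εp L0 : ℝ}
    (hP : Par d m l n w0 R2 b h C c0 Rm M κ0 q0 ε1 η εp L0) (hd : 3 ≤ d)
    (hE2 : η + 1 / (η * (2 * m + 1)) ≤ ε1 ^ 2)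
    (hh : ContDiff ℝ ∞ h) {q : ℝ → ℂ} (hq : ∀ r, q r = h (r ^ 2))
    {K : ℕ} (hK : 2 ≤ K) {lam lam0 c : ℂ} (hlam : ‖lam‖ ≤ L0) (hlam0 : ‖lam0‖ ≤ L0)
    {F G φ γ : ℝ → ℂ} (hF : RadAdm K F) (hG : RadAdm K G) (hφ : RadAdm K φ) (hγ : RadAdm K γ)
    (hsol0 : RSol d m l w0 q lam0 0 φ γ φ γ) (hsol : RSol d m l w0 q lam c F G φ γ)
    {x x0 α β α0 β0 : ℂ} {C1 ε' : ℝ} (hC1 : 0 < C1) (hε' : 0 < ε')
    (hb1 : ∀ r ∈ Icc R2 b, ∀ α α0 c : ℂ, ‖α0‖ ≤ 1 →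
      ‖extF d l w0 x x0 α α0 c r‖ ≤ C1 * (‖α‖ + ‖c‖) ∧
      ‖extF' d l w0 x x0 α α0 c r‖ ≤ C1 * (‖α‖ + ‖c‖) ∧
      ‖extG d l w0 x x0 α α0 c r‖ ≤ C1 * (‖α‖ + ‖c‖) ∧
      ‖extG' d l w0 x x0 α α0 c r‖ ≤ C1 * (‖α‖ + ‖c‖))
    (hb0 : ∀ r ∈ Icc R2 b, ∀ α α0 c : ℂ, ‖α0‖ ≤ 1 →
      ‖extF d l w0 x0 x0 α α0 c r‖ ≤ C1 * (‖α‖ + ‖c‖) ∧
      ‖extF' d l w0 x0 x0 α α0 c r‖ ≤ C1 * (‖α‖ + ‖c‖) ∧
      ‖extG d l w0 x0 x0 α α0 c r‖ ≤ C1 * (‖α‖ + ‖c‖) ∧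
      ‖extG' d l w0 x0 x0 α α0 c r‖ ≤ C1 * (‖α‖ + ‖c‖))
    (hε'2 : ε' * Real.sqrt (16 * M + 2 * b ^ (n + 1)) ≤ 1 / 2)
    (hc0 : ExtClose d l w0 x0 x0 α0 β0 0 0 0 φ γ (Icc R2 b) (ε' * nrm d b φ γ))
    (hc1 : ExtClose d l w0 x x0 α β α0 β0 c F G (Icc R2 b)
      (ε' * (nrm d b F G + ‖c‖ * nrm d b φ γ)))
    {κ C2 C3 : ℝ} (hκ : κ = 4 * Real.sqrt (M * (ε1 + (η + 1 / (η * (2 * m + 1))))) + 4 * εp)
    (hC2 : C2 = Real.sqrt (16 * M + 2 * b ^ (n + 1))) (hC3 : C3 = C1 * (2 + 8 * Real.sqrt M)) :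
    (nrm d b φ γ ≤ 2 * C2 * C3 * (‖α0‖ + ‖β0‖) ∧
      nrm d b F G ≤ 2 * C2 * C3 * (‖α‖ + ‖β‖ + ‖c‖ * (‖α0‖ + ‖β0‖))) ∧
    (‖extF d l w0 x x0 α α0 c R2 + extG d l w0 x x0 β β0 c R2‖ ≤
      (κ * (2 * C3) + 8 * ε' * C2 * C3) * (‖α‖ + ‖β‖ + ‖c‖ * (‖α0‖ + ‖β0‖)) ∧
    ‖extF' d l w0 x x0 α α0 c R2 - extG' d l w0 x x0 β β0 c R2‖ ≤
      (κ * (2 * C3) + 8 * ε' * C2 * C3) * (‖α‖ + ‖β‖ + ‖c‖ * (‖α0‖ + ‖β0‖))) ∧
    (‖α0 * F0 d l w0 x0 R2 + β0 * F0s d l w0 x0 R2‖ ≤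
      (κ * (2 * C3) + 8 * ε' * C2 * C3) * (‖α0‖ + ‖β0‖) ∧
    ‖α0 * F0' d l w0 x0 R2 - β0 * F0s' d l w0 x0 R2‖ ≤
      (κ * (2 * C3) + 8 * ε' * C2 * C3) * (‖α0‖ + ‖β0‖)) := by
  have hε'2' : ε' * C2 ≤ 1 / 2 := by rw [hC2]; exact hε'2
  have hsm : ∀ {f : ℝ → ℂ}, RadAdm K f → ContDiffOn ℝ 2 f (Ioi 0) := fun hf =>
    hf.smooth.of_le (by exact_mod_cast hK)
  -- regular form of the mode
  obtain ⟨uφ, vφ, huφ, hvφ, hpφ⟩ := H523.radial_pair_regular (s1 := fun _ => 0) (s2 := fun _ => 0)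
    hd hh (fun r _ => hq r) (hsm hφ) (hsm hγ) hφ.bdd0 hγ.bdd0 contDiff_const contDiff_const
    (lam := lam0) (l := l) (m := m) (w := w0)
    (by intro r hr; simpa using hsol0.e1 r hr) (by intro r hr; simpa using hsol0.e2 r hr)
  have hφu : ∀ r : ℝ, 0 < r → φ r = (r : ℂ) ^ l * uφ (r ^ 2) := fun r hr => (hpφ r hr).1
  have hγv : ∀ r : ℝ, 0 < r → γ r = (r : ℂ) ^ l * vφ (r ^ 2) := fun r hr => (hpφ r hr).2
  -- regular form of the pair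
  obtain ⟨u, v, hu, hv, hp⟩ := H523.radial_pair_regular (s1 := fun z => c * uφ z)
    (s2 := fun z => c * vφ z) hd hh (fun r _ => hq r) (hsm hF) (hsm hG) hF.bdd0 hG.bdd0
    (contDiff_const.mul huφ) (contDiff_const.mul hvφ) (lam := lam) (l := l) (m := m) (w := w0)
    (by intro r hr; rw [hsol.e1 r hr, hφu r hr]; ring)
    (by intro r hr; rw [hsol.e2 r hr, hγv r hr]; ring)
  have hFu : ∀ r : ℝ, 0 < r → F r = (r : ℂ) ^ l * u (r ^ 2) := fun r hr => (hp r hr).1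
  have hGv : ∀ r : ℝ, 0 < r → G r = (r : ℂ) ^ l * v (r ^ 2) := fun r hr => (hp r hr).2
  have h2 : ∀ {f : ℝ → ℂ}, ContDiff ℝ ∞ f → ContDiff ℝ 2 f := fun hf =>
    by exact_mod_cast contDiff_infty.mp hf 2
  set a0 := ‖α0‖ + ‖β0‖ with ha0
  have ha0n : 0 ≤ a0 := by positivity
  set S := ‖α‖ + ‖β‖ + ‖c‖ * a0 with hS
  have hSn : 0 ≤ S := by positivity
  set Nφ := nrm d b φ γ with hNφ
  have hNφ0 : 0 ≤ Nφ := nrm_nonneg _ _ _ _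
  have hR2 := hP.hR2
  have hpos : ∀ r ∈ Icc R2 b, 0 < r := fun r hr => lt_of_lt_of_le hR2 hr.1
  -- estimate for the mode
  have A1 := est_gen hP hlam0 (q := q) (u := uφ) (v := vφ) (e1 := fun _ => 0) (e2 := fun _ => 0)
    (F := φ) (G := γ) (h2 huφ) (h2 hvφ) continuous_const continuous_const (fun r _ => hq r) hφu hγv
    (by intro r hr; simpa using hsol0.e1 r hr) (by intro r hr; simpa using hsol0.e2 r hr)
    (f := extF d l w0 x0 x0 α0 0 0) (f' := extF' d l w0 x0 x0 α0 0 0)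
    (g := extG d l w0 x0 x0 β0 0 0) (g' := extG' d l w0 x0 x0 β0 0 0)
    (X := C1 * a0) (Y := 0) (Z := 0) (ε' := ε') (by positivity) le_rfl le_rfl hε'.le hε'2
    (by
      intro r hr
      have := ext_bounds' hC1 (hb0 r hr) α0 β0 0 0 0
      simpa using this)
    (by
      intro r hr
      have hr0 := hpos r hr
      have k1 := hc0.f0 r hr
      have k2 := hc0.f1 r hr
      have k3 := hc0.g0 r hr
      have k4 := hc0.g1 r hr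
      rw [hat_eq hφu hr0] at k1
      rw [hat_deriv (h2 huφ) hφu hr0] at k2
      rw [hat_eq hγv hr0] at k3
      rw [hat_deriv (h2 hvφ) hγv hr0] at k4
      rw [add_zero]
      exact ⟨k1, k2, k3, k4⟩)
    (by simp [gS0]) (by simp [gT0])
  rw [← hC2, ← hκ] at A1
  simp only [add_zero, mul_zero] at A1
  obtain ⟨a1, a2, a3, a4, a5⟩ := A1
  have hM := hP.hM
  have hC2n : 0 ≤ C2 := by rw [hC2]; exact Real.sqrt_nonneg _
  have hsM : 0 ≤ Real.sqrt M := Real.sqrt_nonneg _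
  have hC31 : C1 ≤ C3 := by rw [hC3]; nlinarith
  have hC3n : 0 ≤ C3 := hC1.le.trans hC31
  have hκn : 0 ≤ κ := by rw [hκ]; have := hP.hεp; positivity
  -- source bounds
  set Y := 8 * C1 * Real.sqrt M * (‖c‖ * a0) with hY
  have hYn : 0 ≤ Y := by positivity
  have hca : ‖c‖ * a0 ≤ S := by rw [hS]; linarith [norm_nonneg α, norm_nonneg β]
  have hcan : 0 ≤ ‖c‖ * a0 := by positivity
  have hsq : Real.sqrt M ^ 2 = M := Real.sq_sqrt hM.le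
  have hsrcS : ∀ r, ‖gS0 h (fun r => c * uφ (r ^ 2)) (fun r => c * vφ (r ^ 2)) r‖ ^ 2 =
      ‖c‖ ^ 2 * ‖gt h uφ vφ r‖ ^ 2 := by
    intro r
    have : gS0 h (fun r => c * uφ (r ^ 2)) (fun r => c * vφ (r ^ 2)) r = -I * c * gt h uφ vφ r := by
      unfold gS0 gt ev0; ring
    rw [this, norm_mul, norm_mul, norm_neg, Complex.norm_I, one_mul]; ring
  have hsrcT : ∀ r, ‖gT0 h (fun r => c * uφ (r ^ 2)) (fun r => c * vφ (r ^ 2)) r‖ ^ 2 =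
      ‖c‖ ^ 2 * ‖gs h uφ vφ r‖ ^ 2 := by
    intro r
    have : gT0 h (fun r => c * uφ (r ^ 2)) (fun r => c * vφ (r ^ 2)) r = -I * c * gs h uφ vφ r := by
      unfold gT0 gs ev0; ring
    rw [this, norm_mul, norm_mul, norm_neg, Complex.norm_I, one_mul]; ring
  have hSint : ∫ r in (0 : ℝ)..R2, r ^ n * ‖gS0 h (fun r => c * uφ (r ^ 2))
      (fun r => c * vφ (r ^ 2)) r‖ ^ 2 ≤ Y ^ 2 := by
    have e1 : (∫ r in (0 : ℝ)..R2, r ^ n * ‖gS0 h (fun r => c * uφ (r ^ 2))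
      (fun r => c * vφ (r ^ 2)) r‖ ^ 2) = ‖c‖ ^ 2 * ∫ r in (0 : ℝ)..R2, r ^ n * ‖gt h uφ vφ r‖ ^ 2 := by
      rw [← intervalIntegral.integral_const_mul]
      congr 1
      funext r
      rw [hsrcS]; ring
    rw [e1]
    calc ‖c‖ ^ 2 * (∫ r in (0 : ℝ)..R2, r ^ n * ‖gt h uφ vφ r‖ ^ 2)
        ≤ ‖c‖ ^ 2 * (16 * (2 * (C1 * a0)) ^ 2 * M) := mul_le_mul_of_nonneg_left a5 (sq_nonneg _)
      _ = Y ^ 2 := by
        rw [hY]
        have : (8 * C1 * Real.sqrt M * (‖c‖ * a0)) ^ 2 =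
            64 * C1 ^ 2 * (Real.sqrt M ^ 2) * (‖c‖ * a0) ^ 2 := by ring
        rw [this, hsq]; ring
  have hTint : ∫ r in (0 : ℝ)..R2, r ^ n * ‖gT0 h (fun r => c * uφ (r ^ 2))
      (fun r => c * vφ (r ^ 2)) r‖ ^ 2 ≤ (ε1 * Y) ^ 2 := by
    have e1 : (∫ r in (0 : ℝ)..R2, r ^ n * ‖gT0 h (fun r => c * uφ (r ^ 2))
      (fun r => c * vφ (r ^ 2)) r‖ ^ 2) = ‖c‖ ^ 2 * ∫ r in (0 : ℝ)..R2, r ^ n * ‖gs h uφ vφ r‖ ^ 2 := by
      rw [← intervalIntegral.integral_const_mul]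
      congr 1
      funext r
      rw [hsrcT]; ring
    rw [e1]
    have e2 : 16 * (2 * (C1 * a0)) ^ 2 * (M * (η + 1 / (η * (2 * m + 1)))) ≤
        16 * (2 * (C1 * a0)) ^ 2 * (M * ε1 ^ 2) := by
      apply mul_le_mul_of_nonneg_left _ (by positivity)
      exact mul_le_mul_of_nonneg_left hE2 hM.le
    calc ‖c‖ ^ 2 * (∫ r in (0 : ℝ)..R2, r ^ n * ‖gs h uφ vφ r‖ ^ 2)
        ≤ ‖c‖ ^ 2 * (16 * (2 * (C1 * a0)) ^ 2 * (M * ε1 ^ 2)) :=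
          mul_le_mul_of_nonneg_left (a4.trans e2) (sq_nonneg _)
      _ = (ε1 * Y) ^ 2 := by
        rw [hY]
        have : (ε1 * (8 * C1 * Real.sqrt M * (‖c‖ * a0))) ^ 2 =
            ε1 ^ 2 * (64 * C1 ^ 2 * (Real.sqrt M ^ 2) * (‖c‖ * a0) ^ 2) := by ring
        rw [this, hsq]; ring
  -- estimate for the pair
  have A2 := est_gen hP hlam (q := q) (u := u) (v := v) (e1 := fun r => c * uφ (r ^ 2))
    (e2 := fun r => c * vφ (r ^ 2))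
    (F := F) (G := G) (h2 hu) (h2 hv) (continuous_const.mul (huφ.continuous.comp (continuous_pow 2)))
    (continuous_const.mul (hvφ.continuous.comp (continuous_pow 2))) (fun r _ => hq r) hFu hGv
    (by intro r hr; rw [hsol.e1 r hr, hφu r hr]; ring)
    (by intro r hr; rw [hsol.e2 r hr, hγv r hr]; ring)
    (f := extF d l w0 x x0 α α0 c) (f' := extF' d l w0 x x0 α α0 c)
    (g := extG d l w0 x x0 β β0 c) (g' := extG' d l w0 x x0 β β0 c)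
    (X := C1 * S) (Y := Y) (Z := ‖c‖ * Nφ) (ε' := ε') (by positivity) hYn (by positivity)
    hε'.le hε'2
    (by
      intro r hr
      exact ext_bounds' hC1 (hb1 r hr) α β α0 β0 c)
    (by
      intro r hr
      have hr0 := hpos r hr
      have k1 := hc1.f0 r hr
      have k2 := hc1.f1 r hr
      have k3 := hc1.g0 r hr
      have k4 := hc1.g1 r hr
      rw [hat_eq hFu hr0] at k1
      rw [hat_deriv (h2 hu) hFu hr0] at k2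
      rw [hat_eq hGv hr0] at k3
      rw [hat_deriv (h2 hv) hGv hr0] at k4
      exact ⟨k1, k2, k3, k4⟩)
    hSint hTint
  rw [← hC2, ← hκ] at A2
  obtain ⟨b1, b2, b3, -, -⟩ := A2
  have hNφb : Nφ ≤ 2 * C2 * (C1 * a0) := a1
  have hZb : ‖c‖ * Nφ ≤ 2 * C2 * C1 * S := by
    calc ‖c‖ * Nφ ≤ ‖c‖ * (2 * C2 * (C1 * a0)) := mul_le_mul_of_nonneg_left hNφb (norm_nonneg _)
      _ = 2 * C2 * C1 * (‖c‖ * a0) := by ring
      _ ≤ 2 * C2 * C1 * S := mul_le_mul_of_nonneg_left hca (by positivity)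
  have hsumb : C1 * S + Y + ε' * (‖c‖ * Nφ) ≤ C3 * S := by
    have e1 : Y ≤ 8 * C1 * Real.sqrt M * S := mul_le_mul_of_nonneg_left hca (by positivity)
    have e2 : ε' * (‖c‖ * Nφ) ≤ C1 * S := by
      calc ε' * (‖c‖ * Nφ) ≤ ε' * (2 * C2 * C1 * S) := mul_le_mul_of_nonneg_left hZb hε'.le
        _ = (ε' * C2) * (2 * C1 * S) := by ring
        _ ≤ 1 / 2 * (2 * C1 * S) := mul_le_mul_of_nonneg_right hε'2' (by positivity)
        _ = C1 * S := by ring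
    calc C1 * S + Y + ε' * (‖c‖ * Nφ) ≤ C1 * S + 8 * C1 * Real.sqrt M * S + C1 * S := by linarith
      _ = C3 * S := by rw [hC3]; ring
  have hNb : nrm d b F G ≤ 2 * C2 * C3 * S := by
    calc nrm d b F G ≤ _ := b1
      _ ≤ 2 * C2 * (C3 * S) := mul_le_mul_of_nonneg_left hsumb (by positivity)
      _ = _ := by ring
  have herr : 2 * (ε' * (nrm d b F G + ‖c‖ * Nφ)) ≤ 8 * ε' * C2 * C3 * S := by
    have e1 : ‖c‖ * Nφ ≤ 2 * C2 * C3 * S := by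
      refine hZb.trans ?_
      apply mul_le_mul_of_nonneg_right _ hSn
      exact mul_le_mul_of_nonneg_left hC31 (by positivity)
    have e2 : ε' * (nrm d b F G + ‖c‖ * Nφ) ≤ ε' * (4 * C2 * C3 * S) :=
      mul_le_mul_of_nonneg_left (by linarith) hε'.le
    calc _ ≤ 2 * (ε' * (4 * C2 * C3 * S)) := by linarith
      _ = _ := by ring
  have hκb : κ * (2 * (C1 * S + Y + ε' * (‖c‖ * Nφ))) ≤ κ * (2 * C3) * S := by
    calc _ ≤ κ * (2 * (C3 * S)) := by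
          apply mul_le_mul_of_nonneg_left _ hκn
          linarith
      _ = _ := by ring
  have herr0 : 2 * (ε' * Nφ) ≤ 8 * ε' * C2 * C3 * a0 := by
    have e1 : Nφ ≤ 4 * C2 * C3 * a0 := by
      refine hNφb.trans ?_
      have e2 : C1 * a0 ≤ C3 * a0 := mul_le_mul_of_nonneg_right hC31 ha0n
      have e3 : 2 * C2 * (C1 * a0) ≤ 2 * C2 * (C3 * a0) :=
        mul_le_mul_of_nonneg_left e2 (by positivity)
      have e4 : 0 ≤ 2 * C2 * (C3 * a0) := by positivity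
      linarith
    calc 2 * (ε' * Nφ) ≤ 2 * (ε' * (4 * C2 * C3 * a0)) := by
          have := mul_le_mul_of_nonneg_left e1 hε'.le
          linarith
      _ = _ := by ring
  have hκb0 : κ * (2 * (C1 * a0)) ≤ κ * (2 * C3) * a0 := by
    have e2 : C1 * a0 ≤ C3 * a0 := mul_le_mul_of_nonneg_right hC31 ha0n
    calc _ ≤ κ * (2 * (C3 * a0)) := by
          apply mul_le_mul_of_nonneg_left _ hκn
          linarith
      _ = _ := by ring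
  have f1 : extF d l w0 x0 x0 α0 0 0 R2 = α0 * F0 d l w0 x0 R2 := by unfold extF; ring
  have f2 : extG d l w0 x0 x0 β0 0 0 R2 = β0 * F0s d l w0 x0 R2 := by unfold extG; ring
  have f3 : extF' d l w0 x0 x0 α0 0 0 R2 = α0 * F0' d l w0 x0 R2 := by unfold extF'; ring
  have f4 : extG' d l w0 x0 x0 β0 0 0 R2 = β0 * F0s' d l w0 x0 R2 := by unfold extG'; ring
  rw [f1, f2] at a2
  rw [f3, f4] at a3
  refine ⟨⟨?_, hNb⟩, ⟨?_, ?_⟩, ⟨?_, ?_⟩⟩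
  · refine hNφb.trans ?_
    have e2 : C1 * a0 ≤ C3 * a0 := mul_le_mul_of_nonneg_right hC31 ha0n
    calc 2 * C2 * (C1 * a0) ≤ 2 * C2 * (C3 * a0) := mul_le_mul_of_nonneg_left e2 (by positivity)
      _ = _ := by ring
  · calc _ ≤ _ := b2
      _ ≤ _ := by linarith
  · calc _ ≤ _ := b3
      _ ≤ _ := by linarith
  · calc _ ≤ _ := a2
      _ ≤ _ := by linarith
  · calc _ ≤ _ := a3
      _ ≤ _ := by linarith

end Vale.Agent.P139.H311
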