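import Vale.Agent.P139.H311.Key

/-!
Block S2: the key estimate (K), family form.
-/

noncomputable section

open scoped ComplexConjugate ContDiff Topology
open MeasureTheory Set Complex Filter

namespace Vale.Agent.P139.H311

open H741 BU KU

lemma aa_nonneg (m : ℕ) : 0 ≤ aa m := by unfold aa; positivity

lemma aa_le_one {m : ℕ} (hm : 1 ≤ m) : aa m ≤ 1 := by
  unfold aa
  have : (1 : ℝ) ≤ m := by exact_mod_cast hm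
  rw [div_le_one (by positivity)]
  linarith

/-- Choice of the parameters for a family of profiles. -/
lemma key_par {d : ℕ} (hd : 3 ≤ d) {B : Set (ℝ × ℝ)} {m0 : ℕ} {w R : ℕ → ℝ} {q : ℕ → ℝ → ℂ}
    (hUP : UP d B m0 w R q) {b : ℝ} (hb : ∀ m, m0 ≤ m → R m + 1 ≤ b) (l : ℕ) {L0 : ℝ}
    (hcoef : CoefFam d l w R q L0) (hphase : PhaseFam R q) :
    ∃ (n : ℕ) (C c0 R1 M κ0 q0 : ℝ), n + 1 = d + 2 * l ∧ 0 < R1 ∧ 0 < M ∧ 0 < κ0 ∧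
      ∀ ε1 > 0, ε1 ≤ κ0 → ε1 ≤ 1 → ∀ εp > 0, εp ≤ 1 → ∃ η0 > 0, ∀ η : ℝ, 0 < η → η ≤ η0 →
      ∃ m1 : ℕ, ∀ m, m1 ≤ m → ∃ h : ℝ → ℂ, ContDiff ℝ ∞ h ∧ (∀ r, q m r = h (r ^ 2)) ∧
        Par d m l n (w m) (R m + η) b h C c0 R1 M κ0 q0 ε1 η εp L0 ∧
        η + 1 / (η * (2 * m + 1)) ≤ ε1 ^ 2 ∧ |w m| ≤ 1 ∧ R1 ≤ R m + η := by
  obtain ⟨C, hC, c0, hc0, ηs, hηs, Hcoef⟩ := hcoef
  obtain ⟨R1, hR1, R2', hRbd⟩ := hUP.Rbd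
  obtain ⟨w1, hw1, hwbd⟩ := hUP.wbd
  obtain ⟨n, hn⟩ : ∃ n : ℕ, n = d + 2 * l - 1 := ⟨_, rfl⟩
  have hn1 : n + 1 = d + 2 * l := by omega
  have hn2 : 1 ≤ n := by omega
  obtain ⟨M, hM, κ0, hκ0, q0, hq0, hI⟩ := exists_innerConst n b hC hc0 hR1
  refine ⟨n, C, c0, R1, M, κ0, q0, hn1, hR1, hM, hκ0, ?_⟩
  intro ε1 hε1p hε1κ hε11 εp hεpp hεp1
  obtain ⟨ηp, hηp, Hphase⟩ := hphase εp hεpp
  refine ⟨min (min (min κ0 1) (ε1 ^ 2 / 2)) (min ηs ηp), ?_, ?_⟩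
  · exact lt_min (lt_min (lt_min hκ0 one_pos) (by positivity)) (lt_min hηs hηp)
  intro η hη hηle
  have hηκ : η ≤ κ0 := hηle.trans ((min_le_left _ _).trans ((min_le_left _ _).trans
    (min_le_left _ _)))
  have hη1 : η ≤ 1 := hηle.trans ((min_le_left _ _).trans ((min_le_left _ _).trans
    (min_le_right _ _)))
  have hηε : η ≤ ε1 ^ 2 / 2 := hηle.trans ((min_le_left _ _).trans (min_le_right _ _))
  have hηs' : η ≤ ηs := hηle.trans ((min_le_right _ _).trans (min_le_left _ _))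
  have hηp' : η ≤ ηp := hηle.trans ((min_le_right _ _).trans (min_le_right _ _))
  obtain ⟨ma, Ha⟩ := Hcoef ε1 hε1p η hη hηs'
  obtain ⟨mb, Hb⟩ := Hphase η hη hηp'
  obtain ⟨mc, hmc⟩ := exists_nat_ge (max q0 (2 / (η * ε1 ^ 2)))
  refine ⟨max (max ma mb) (max mc (max m0 1)), ?_⟩
  intro m hm
  have hma : ma ≤ m := (le_max_left _ _).trans ((le_max_left _ _).trans hm)
  have hmb : mb ≤ m := (le_max_right _ _).trans ((le_max_left _ _).trans hm)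
  have hmc' : mc ≤ m := (le_max_left _ _).trans ((le_max_right _ _).trans hm)
  have hmm0 : m0 ≤ m := (le_max_left _ _).trans ((le_max_right _ _).trans
    ((le_max_right _ _).trans hm))
  have hm1 : 1 ≤ m := (le_max_right _ _).trans ((le_max_right _ _).trans
    ((le_max_right _ _).trans hm))
  have hmR : (mc : ℝ) ≤ m := by exact_mod_cast hmc'
  have hmq : q0 ≤ 2 * (m : ℝ) + 1 := by
    have : q0 ≤ mc := (le_max_left _ _).trans hmc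
    have h0 : (0 : ℝ) ≤ m := Nat.cast_nonneg m
    linarith
  have hmE : 1 / (η * (2 * (m : ℝ) + 1)) ≤ ε1 ^ 2 / 2 := by
    have h1 : 2 / (η * ε1 ^ 2) ≤ m := ((le_max_right _ _).trans hmc).trans hmR
    rw [div_le_iff₀ (by positivity)] at h1
    rw [div_le_div_iff₀ (by positivity) (by norm_num)]
    have h2 : 0 < η * ε1 ^ 2 := by positivity
    nlinarith
  have hE2 : η + 1 / (η * (2 * (m : ℝ) + 1)) ≤ ε1 ^ 2 := by linarith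
  have hE1 : η + 1 / (η * (2 * (m : ℝ) + 1)) ≤ 1 := by
    refine hE2.trans ?_
    nlinarith
  obtain ⟨h, hh, hq⟩ := hUP.rad m hmm0
  have hne : ∀ z : ℝ, 0 ≤ z → h z ≠ 0 := by
    intro z hz
    have h1 := hUP.ne m hmm0 (Real.sqrt z)
    rw [hq, Real.sq_sqrt hz] at h1
    exact h1
  obtain ⟨hψ, hz⟩ := Hb m hmb h hh hq
  have hh2 : ContDiff ℝ 2 h := by exact_mod_cast contDiff_infty.mp hh 2
  have hRm := (hRbd m hmm0).1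
  have hwm : |w m| ≤ 1 := by
    rw [abs_le]
    have h1 := hwbd m hmm0
    constructor <;> linarith [h1.1, h1.2]
  have hRb := hb m hmm0
  have hBB : ∀ lam : ℂ, ‖lam‖ ≤ L0 → CoefBd (R m + η) (gP m h) (gV (w m) h) (gw h) (gdel n h)
      (lam + aa m - (d : ℂ) / 4) C c0 ε1 η := by
    intro lam' hlam'
    rw [hn]
    exact Ha m hma lam' hlam' h hh hq
  refine ⟨h, hh, hq, ?_, hE2, hwm, by linarith⟩
  exact ⟨hI, hM, hq0, hh2, hne, by omega, hn1, hn2, hm1, by linarith, by linarith, hBB,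
    by linarith, hε1κ, hηκ, hmq, hE1, hεpp.le, hεp1, hz, hψ⟩

/-- The small constant. -/
lemma key_small {M ε1 εp ε ε' C2 C3 E : ℝ} (hM : 0 < M) (hC3p : 0 < C3) (hC2p : 0 < C2)
    (hε : 0 < ε) (hε11 : ε1 ≤ 1) (hε1p : 0 < ε1) (hE : E ≤ ε1 ^ 2)
    (hεp2 : εp ≤ ε / (32 * C3)) (hε12 : ε1 ≤ (ε / (32 * C3)) ^ 2 / (2 * M))
    (hε'b : ε' ≤ ε / (16 * C2 * C3)) :
    (4 * Real.sqrt (M * (ε1 + E)) + 4 * εp) * (2 * C3) + 8 * ε' * C2 * C3 ≤ ε := by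
  have k1 : Real.sqrt (M * (ε1 + E)) ≤ ε / (32 * C3) := by
    rw [Real.sqrt_le_left (by positivity)]
    have k2 : ε1 + E ≤ 2 * ε1 := by nlinarith
    rw [le_div_iff₀ (by positivity)] at hε12
    calc M * (ε1 + E) ≤ M * (2 * ε1) := mul_le_mul_of_nonneg_left k2 hM.le
      _ ≤ _ := by linarith
  have k3 : (4 * Real.sqrt (M * (ε1 + E)) + 4 * εp) * (2 * C3) ≤
      (4 * (ε / (32 * C3)) + 4 * (ε / (32 * C3))) * (2 * C3) := by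
    apply mul_le_mul_of_nonneg_right _ (by positivity)
    linarith
  have k4 : (4 * (ε / (32 * C3)) + 4 * (ε / (32 * C3))) * (2 * C3) = ε / 2 := by
    field_simp; ring
  have k5 : 8 * ε' * C2 * C3 ≤ ε / 2 := by
    rw [le_div_iff₀ (by positivity)] at hε'b
    linarith
  linarith

lemma shift_bd {m : ℕ} {L0 : ℝ} (hm1 : 1 ≤ m) {lam : ℂ} (h1 : 0 ≤ lam.re) (h2 : ‖lam‖ ≤ L0) :
    0 ≤ (lam + aa m : ℂ).re ∧ ‖(lam + aa m : ℂ)‖ ≤ L0 + 1 := by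
  have ha0 := aa_nonneg m
  have ha1 := aa_le_one hm1
  constructor
  · simp; linarith
  · refine (norm_add_le _ _).trans ?_
    rw [Complex.norm_real, Real.norm_eq_abs, abs_of_nonneg ha0]
    linarith

/-- Conclusion of the key estimate for one `m` and one `η`. -/
def KeyOut (d m l K : ℕ) (w0 R2 b Cs ε ε' L0 : ℝ) (q : ℝ → ℂ) : Prop :=
  ∀ lam lam0 : ℂ, 0 ≤ lam.re → 0 ≤ lam0.re → ‖lam‖ ≤ L0 → ‖lam0‖ ≤ L0 →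
    ∀ (F G φ γ : ℝ → ℂ) (c : ℂ), RadAdm K F → RadAdm K G → RadAdm K φ → RadAdm K γ →
    RSol d m l w0 q lam0 0 φ γ φ γ → RSol d m l w0 q lam c F G φ γ →
    ∀ α β α0 β0 : ℂ,
    ExtClose d l w0 (lam0 + aa m) (lam0 + aa m) α0 β0 0 0 0 φ γ (Icc R2 b)
      (ε' * nrm d b φ γ) →
    ExtClose d l w0 (lam + aa m) (lam0 + aa m) α β α0 β0 c F G (Icc R2 b)
      (ε' * (nrm d b F G + ‖c‖ * nrm d b φ γ)) →
    (nrm d b φ γ ≤ Cs * (‖α0‖ + ‖β0‖) ∧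
      nrm d b F G ≤ Cs * (‖α‖ + ‖β‖ + ‖c‖ * (‖α0‖ + ‖β0‖))) ∧
    (‖extF d l w0 (lam + aa m) (lam0 + aa m) α α0 c R2 +
        extG d l w0 (lam + aa m) (lam0 + aa m) β β0 c R2‖ ≤
      ε * (‖α‖ + ‖β‖ + ‖c‖ * (‖α0‖ + ‖β0‖)) ∧
    ‖extF' d l w0 (lam + aa m) (lam0 + aa m) α α0 c R2 -
        extG' d l w0 (lam + aa m) (lam0 + aa m) β β0 c R2‖ ≤
      ε * (‖α‖ + ‖β‖ + ‖c‖ * (‖α0‖ + ‖β0‖))) ∧
    (‖α0 * F0 d l w0 (lam0 + aa m) R2 + β0 * F0s d l w0 (lam0 + aa m) R2‖ ≤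
      ε * (‖α0‖ + ‖β0‖) ∧
    ‖α0 * F0' d l w0 (lam0 + aa m) R2 - β0 * F0s' d l w0 (lam0 + aa m) R2‖ ≤
      ε * (‖α0‖ + ‖β0‖))

lemma keyOut_of {d m l n K : ℕ} {w0 R2 b : ℝ} {h : ℝ → ℂ}
    {C c0 R1 M κ0 q0 ε1 η εp L0 C1 C2 C3 ε ε' : ℝ}
    (hP : Par d m l n w0 R2 b h C c0 R1 M κ0 q0 ε1 η εp L0) (hd : 3 ≤ d)
    (hE2 : η + 1 / (η * (2 * m + 1)) ≤ ε1 ^ 2)
    (hh : ContDiff ℝ ∞ h) {q : ℝ → ℂ} (hq : ∀ r, q r = h (r ^ 2)) (hK : 2 ≤ K)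
    (hw : |w0| ≤ 1) (hR : R1 ≤ R2) (hC1 : 0 < C1)
    (hext : ∀ (w : ℝ) (x x0 : ℂ) (r : ℝ), |w| ≤ 1 → 0 ≤ x.re → ‖x‖ ≤ L0 + 1 → 0 ≤ x0.re →
      ‖x0‖ ≤ L0 + 1 → R1 ≤ r → r ≤ b → ∀ α α0 c : ℂ, ‖α0‖ ≤ 1 →
      ‖extF d l w x x0 α α0 c r‖ ≤ C1 * (‖α‖ + ‖c‖) ∧ ‖extF' d l w x x0 α α0 c r‖ ≤ C1 * (‖α‖ + ‖c‖) ∧
      ‖extG d l w x x0 α α0 c r‖ ≤ C1 * (‖α‖ + ‖c‖) ∧ ‖extG' d l w x x0 α α0 c r‖ ≤ C1 * (‖α‖ + ‖c‖))
    (hC2 : C2 = Real.sqrt (16 * M + 2 * b ^ (n + 1))) (hC3 : C3 = C1 * (2 + 8 * Real.sqrt M))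
    (hC2p : 0 < C2) (hε'p : 0 < ε') (hε'a : ε' ≤ 1 / (2 * C2))
    (hsmall : (4 * Real.sqrt (M * (ε1 + (η + 1 / (η * (2 * m + 1))))) + 4 * εp) * (2 * C3)
      + 8 * ε' * C2 * C3 ≤ ε) :
    KeyOut d m l K w0 R2 b (2 * C2 * C3) ε ε' L0 q := by
  intro lam lam0 hre hre0 hlam hlam0 F G φ γ c hF hG hφ hγ hsol0 hsol α β α0 β0 hcl0 hcl
  obtain ⟨hx1, hx2⟩ := shift_bd (L0 := L0) hP.hm hre hlam
  obtain ⟨hx3, hx4⟩ := shift_bd (L0 := L0) hP.hm hre0 hlam0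
  have hc : ε' * Real.sqrt (16 * M + 2 * b ^ (n + 1)) ≤ 1 / 2 := by
    rw [← hC2]
    rw [le_div_iff₀ (by positivity)] at hε'a
    linarith
  obtain ⟨⟨r1, r2⟩, ⟨r3, r4⟩, ⟨r5, r6⟩⟩ := est_pair hP hd hE2 hh hq hK hlam hlam0 hF hG hφ hγ
    hsol0 hsol (x := lam + aa m) (x0 := lam0 + aa m) (α := α) (β := β) (α0 := α0) (β0 := β0)
    hC1 hε'p
    (fun r hr => hext w0 _ _ r hw hx1 hx2 hx3 hx4 (hR.trans hr.1) hr.2)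
    (fun r hr => hext w0 _ _ r hw hx3 hx4 hx3 hx4 (hR.trans hr.1) hr.2)
    hc hcl0 hcl rfl hC2 hC3
  have s1 : 0 ≤ ‖α0‖ + ‖β0‖ := by positivity
  have s2 : 0 ≤ ‖α‖ + ‖β‖ + ‖c‖ * (‖α0‖ + ‖β0‖) := by positivity
  exact ⟨⟨r1, r2⟩, ⟨r3.trans (mul_le_mul_of_nonneg_right hsmall s2),
    r4.trans (mul_le_mul_of_nonneg_right hsmall s2)⟩,
    ⟨r5.trans (mul_le_mul_of_nonneg_right hsmall s1),
    r6.trans (mul_le_mul_of_nonneg_right hsmall s1)⟩⟩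

/-- **Key estimate (K).** -/
theorem key {d : ℕ} (hd : 3 ≤ d) {B : Set (ℝ × ℝ)} {m0 : ℕ} {w R : ℕ → ℝ} {q : ℕ → ℝ → ℂ}
    (hUP : UP d B m0 w R q) {b : ℝ} (hb : ∀ m, m0 ≤ m → R m + 1 ≤ b) (l : ℕ) {L0 : ℝ}
    (hcoef : CoefFam d l w R q L0) (hphase : PhaseFam R q) :
    ∃ Cs > 0, ∀ ε > 0, ∃ η0 > 0, ∀ η : ℝ, 0 < η → η ≤ η0 → ∃ m1 : ℕ, ∃ ε' > 0, ∀ m, m1 ≤ m →
      ∀ K : ℕ, 2 ≤ K → KeyOut d m l K (w m) (R m + η) b Cs ε ε' L0 (q m) := by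
  obtain ⟨n, C, c0, R1, M, κ0, q0, hn1, hR1, hM, hκ0, H⟩ := key_par hd hUP hb l hcoef hphase
  obtain ⟨C1, hC1, hext⟩ := ext_bounds d l 1 (L0 + 1) b hR1
  have hb0 : 0 < b := by
    have h1 := hb m0 le_rfl
    have h2 := hUP.Rpos m0 le_rfl
    linarith
  obtain ⟨C2, hC2⟩ : ∃ C2 : ℝ, C2 = Real.sqrt (16 * M + 2 * b ^ (n + 1)) := ⟨_, rfl⟩
  obtain ⟨C3, hC3⟩ : ∃ C3 : ℝ, C3 = C1 * (2 + 8 * Real.sqrt M) := ⟨_, rfl⟩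
  have hC2p : 0 < C2 := by rw [hC2]; positivity
  have hC3p : 0 < C3 := by rw [hC3]; positivity
  refine ⟨2 * C2 * C3, by positivity, ?_⟩
  intro ε hε
  obtain ⟨εp, hεp⟩ : ∃ εp : ℝ, εp = min 1 (ε / (32 * C3)) := ⟨_, rfl⟩
  have hεpp : 0 < εp := by rw [hεp]; exact lt_min one_pos (by positivity)
  have hεp1 : εp ≤ 1 := by rw [hεp]; exact min_le_left _ _
  have hεp2 : εp ≤ ε / (32 * C3) := by rw [hεp]; exact min_le_right _ _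
  obtain ⟨ε1, hε1⟩ : ∃ ε1 : ℝ, ε1 = min (min κ0 1) ((ε / (32 * C3)) ^ 2 / (2 * M)) := ⟨_, rfl⟩
  have hε1p : 0 < ε1 := by
    rw [hε1]; exact lt_min (lt_min hκ0 one_pos) (by positivity)
  have hε1κ : ε1 ≤ κ0 := by rw [hε1]; exact (min_le_left _ _).trans (min_le_left _ _)
  have hε11 : ε1 ≤ 1 := by rw [hε1]; exact (min_le_left _ _).trans (min_le_right _ _)
  have hε12 : ε1 ≤ (ε / (32 * C3)) ^ 2 / (2 * M) := by rw [hε1]; exact min_le_right _ _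
  obtain ⟨η0, hη0, H1⟩ := H ε1 hε1p hε1κ hε11 εp hεpp hεp1
  refine ⟨η0, hη0, ?_⟩
  intro η hη hηle
  obtain ⟨m1, H2⟩ := H1 η hη hηle
  obtain ⟨ε', hε'⟩ : ∃ ε' : ℝ, ε' = min (1 / (2 * C2)) (ε / (16 * C2 * C3)) := ⟨_, rfl⟩
  have hε'p : 0 < ε' := by rw [hε']; exact lt_min (by positivity) (by positivity)
  have hε'a : ε' ≤ 1 / (2 * C2) := by rw [hε']; exact min_le_left _ _
  have hε'b : ε' ≤ ε / (16 * C2 * C3) := by rw [hε']; exact min_le_right _ _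
  refine ⟨m1, ε', hε'p, ?_⟩
  intro m hm K hK
  obtain ⟨h, hh, hq, hP, hE2, hw, hR⟩ := H2 m hm
  exact keyOut_of hP hd hE2 hh hq hK hw hR hC1 hext hC2 hC3 hC2p hε'p hε'a
    (key_small hM hC3p hC2p hε hε11 hε1p hE2 hεp2 hε12 hε'b)

end Vale.Agent.P139.H311
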