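import Vale.Agent.P139.H311.Match
import Vale.Agent.P139.H311.Bd
import Vale.Agent.P139.H741.Gauge

/-!
Block S2: estimate for one radial pair, from its data at the outer end of the layer.
-/

noncomputable section

open scoped ComplexConjugate ContDiff
open MeasureTheory Set Complex

namespace Vale.Agent.P139.H311

open H741 BU

lemma em_eq_conj (h : ℝ → ℂ) (r : ℝ) : H741.em h r = conj (ep h r) := by
  unfold H741.em ep
  rw [← Complex.exp_conj, map_mul, Complex.conj_I, Complex.conj_ofReal, neg_mul]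

/-- The gauge output for a radial pair. -/
theorem gout {d m l n : ℕ} {w0 R2 : ℝ} {lam : ℂ} {h u v e1 e2 q F G : ℝ → ℂ}
    (hh : ContDiff ℝ 2 h) (hne : ∀ z : ℝ, 0 ≤ z → h z ≠ 0)
    (hn : n + 1 = d + 2 * l) (hn1 : 1 ≤ n) (hm : 1 ≤ m) (hR : 0 < R2)
    (hu : ContDiff ℝ 2 u) (hv : ContDiff ℝ 2 v)
    (he1 : ContinuousOn e1 (Icc 0 R2)) (he2 : ContinuousOn e2 (Icc 0 R2))
    (hq : ∀ r : ℝ, 0 < r → q r = h (r ^ 2))
    (hF : ∀ r : ℝ, 0 < r → F r = (r : ℂ) ^ l * u (r ^ 2))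
    (hG : ∀ r : ℝ, 0 < r → G r = (r : ℂ) ^ l * v (r ^ 2))
    (E1 : ∀ r ∈ Ioo 0 R2, RL1 d m l w0 q F G r = lam * F r + (r : ℂ) ^ l * e1 r)
    (E2 : ∀ r ∈ Ioo 0 R2, RL2 d m l w0 q F G r = lam * G r + (r : ℂ) ^ l * e2 r) :
    GOut n R2 (2 * m + 1) (gP m h) (gV w0 h) (gw h) (gdel n h) (lam + aa m - (d : ℂ) / 4)
      (ep h) (th1 h) (ev0 u) (ev0 v) (ev1 u) (ev1 v) e1 e2 (gs h u v) (gt h u v)
      (gs1 h u v) (gt1 h u v) (gS0 h e1 e2) (gT0 h e1 e2) where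
  sys := gsys_of_RL hh hne hn hn1 hm hR hu hv he1 he2 hq hF hG E1 E2
  zn := fun r _ => norm_ep h r
  hs := by intro r _; unfold gs; rw [em_eq_conj]
  ht := by intro r _; unfold gt; rw [em_eq_conj]
  hs1 := by unfold gs1; rw [em_eq_conj]
  ht1 := by unfold gt1; rw [em_eq_conj]
  hS0 := by intro r _; unfold gS0; rw [em_eq_conj]
  hT0 := by intro r _; unfold gT0; rw [em_eq_conj]

lemma nrm_nonneg (d : ℕ) (b : ℝ) (F G : ℝ → ℂ) : 0 ≤ nrm d b F G := Real.sqrt_nonneg _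

/-- The `L²` size from the gauged pair inside and a pointwise bound outside. -/
lemma nrm_sq_le {d l n : ℕ} {R2 b A X1 X2 : ℝ} {h u v F G : ℝ → ℂ}
    (hh : ContDiff ℝ 2 h) (hne : ∀ z : ℝ, 0 ≤ z → h z ≠ 0)
    (hd : 1 ≤ d) (hn : n + 1 = d + 2 * l) (hR : 0 < R2) (hRb : R2 ≤ b)
    (hu : ContDiff ℝ 2 u) (hv : ContDiff ℝ 2 v)
    (hF : ∀ r : ℝ, 0 < r → F r = (r : ℂ) ^ l * u (r ^ 2))
    (hG : ∀ r : ℝ, 0 < r → G r = (r : ℂ) ^ l * v (r ^ 2))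
    (hs : ∫ r in (0 : ℝ)..R2, r ^ n * ‖gs h u v r‖ ^ 2 ≤ X1)
    (ht : ∫ r in (0 : ℝ)..R2, r ^ n * ‖gt h u v r‖ ^ 2 ≤ X2)
    (ho : ∀ r ∈ Icc R2 b, ‖ev0 u r‖ ≤ A ∧ ‖ev0 v r‖ ≤ A) :
    nrm d b F G ^ 2 ≤ (X1 + X2) / 2 + 2 * b ^ (n + 1) * A ^ 2 := by
  have hb : 0 ≤ b := hR.le.trans hRb
  have hcu : Continuous (ev0 u) := continuous_ev0 hu
  have hcv : Continuous (ev0 v) := continuous_ev0 hv
  have hcs : Continuous (gs h u v) :=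
    continuous_iff_continuousAt.mpr fun r => (hasDerivAt_gs hh hne hu hv r).continuousAt
  have hct : Continuous (gt h u v) :=
    continuous_iff_continuousAt.mpr fun r => (hasDerivAt_gt hh hne hu hv r).continuousAt
  have hc : Continuous (fun r : ℝ => r ^ n * (‖ev0 u r‖ ^ 2 + ‖ev0 v r‖ ^ 2)) := by fun_prop
  have e1 : ∫ r in (0 : ℝ)..b, r ^ (d - 1) * (‖F r‖ ^ 2 + ‖G r‖ ^ 2) =
      ∫ r in (0 : ℝ)..b, r ^ n * (‖ev0 u r‖ ^ 2 + ‖ev0 v r‖ ^ 2) := by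
    apply intervalIntegral.integral_congr_ae
    refine Filter.Eventually.of_forall fun r hr => ?_
    rw [uIoc_of_le hb] at hr
    rw [hF r hr.1, hG r hr.1]
    simp only [norm_mul, norm_pow, Complex.norm_real, Real.norm_eq_abs, abs_of_pos hr.1]
    have : n = d - 1 + 2 * l := by omega
    rw [this]
    show _ = r ^ (d - 1 + 2 * l) * (‖u (r ^ 2)‖ ^ 2 + ‖v (r ^ 2)‖ ^ 2)
    ring
  have hnn : 0 ≤ ∫ r in (0 : ℝ)..b, r ^ (d - 1) * (‖F r‖ ^ 2 + ‖G r‖ ^ 2) := by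
    apply intervalIntegral.integral_nonneg hb
    intro r hr
    have := hr.1
    positivity
  unfold nrm
  rw [Real.sq_sqrt hnn, e1]
  rw [← intervalIntegral.integral_add_adjacent_intervals (hc.intervalIntegrable 0 R2)
    (hc.intervalIntegrable R2 b)]
  have e2 : ∫ r in (0 : ℝ)..R2, r ^ n * (‖ev0 u r‖ ^ 2 + ‖ev0 v r‖ ^ 2) =
      1 / 2 * ((∫ r in (0 : ℝ)..R2, r ^ n * ‖gs h u v r‖ ^ 2) +
        ∫ r in (0 : ℝ)..R2, r ^ n * ‖gt h u v r‖ ^ 2) := by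
    have i1 : IntervalIntegrable (fun r : ℝ => r ^ n * ‖gs h u v r‖ ^ 2) volume 0 R2 :=
      (show Continuous (fun r : ℝ => r ^ n * ‖gs h u v r‖ ^ 2) by fun_prop).intervalIntegrable _ _
    have i2 : IntervalIntegrable (fun r : ℝ => r ^ n * ‖gt h u v r‖ ^ 2) volume 0 R2 :=
      (show Continuous (fun r : ℝ => r ^ n * ‖gt h u v r‖ ^ 2) by fun_prop).intervalIntegrable _ _
    rw [← intervalIntegral.integral_add i1 i2, ← intervalIntegral.integral_const_mul]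
    congr 1
    funext r
    have hg := gauge_norm_sq (x := ev0 u r) (y := ev0 v r) (norm_ep h r)
    have g1 : gs h u v r = conj (ep h r) * ev0 u r + ep h r * ev0 v r := by
      unfold gs; rw [em_eq_conj]
    have g2 : gt h u v r = conj (ep h r) * ev0 u r - ep h r * ev0 v r := by
      unfold gt; rw [em_eq_conj]
    rw [← g1, ← g2] at hg
    rw [← mul_add, hg]
    ring
  have e3 : ∫ r in R2..b, r ^ n * (‖ev0 u r‖ ^ 2 + ‖ev0 v r‖ ^ 2) ≤ 2 * b ^ (n + 1) * A ^ 2 := by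
    have h1 : ∫ r in R2..b, r ^ n * (‖ev0 u r‖ ^ 2 + ‖ev0 v r‖ ^ 2) ≤
        ∫ _ in R2..b, b ^ n * (2 * A ^ 2) := by
      apply intervalIntegral.integral_mono_on hRb (hc.intervalIntegrable _ _)
        intervalIntegrable_const
      intro r hr
      have hr0 : 0 ≤ r := hR.le.trans hr.1
      obtain ⟨k1, k2⟩ := ho r hr
      have k3 : ‖ev0 u r‖ ^ 2 ≤ A ^ 2 := pow_le_pow_left₀ (norm_nonneg _) k1 2
      have k4 : ‖ev0 v r‖ ^ 2 ≤ A ^ 2 := pow_le_pow_left₀ (norm_nonneg _) k2 2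
      apply mul_le_mul (pow_le_pow_left₀ hr0 hr.2 n) (by linarith) (by positivity) (by positivity)
    rw [intervalIntegral.integral_const, smul_eq_mul] at h1
    refine h1.trans ?_
    have h2 : (b - R2) * (b ^ n * (2 * A ^ 2)) ≤ b * (b ^ n * (2 * A ^ 2)) :=
      mul_le_mul_of_nonneg_right (by linarith) (by positivity)
    calc _ ≤ _ := h2
      _ = _ := by ring
  rw [e2]
  linarith

/-- Estimate for one pair. -/
theorem pair_est {d m l n : ℕ} {w0 R2 b : ℝ} {lam : ℂ} {h u v e1 e2 F G : ℝ → ℂ}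
    {C c0 Rm RM M κ0 q0 ε1 η A εp : ℝ}
    (hI : InnerConst n C c0 Rm RM M κ0 q0) (hM : 0 < M) (hq0 : 0 < q0)
    (hh : ContDiff ℝ 2 h) (hne : ∀ z : ℝ, 0 ≤ z → h z ≠ 0)
    (hd : 1 ≤ d) (hn : n + 1 = d + 2 * l)
    (hRb : R2 ≤ b) (hu : ContDiff ℝ 2 u) (hv : ContDiff ℝ 2 v)
    (hF : ∀ r : ℝ, 0 < r → F r = (r : ℂ) ^ l * u (r ^ 2))
    (hG : ∀ r : ℝ, 0 < r → G r = (r : ℂ) ^ l * v (r ^ 2))
    (hO : GOut n R2 (2 * m + 1) (gP m h) (gV w0 h) (gw h) (gdel n h) (lam + aa m - (d : ℂ) / 4)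
      (ep h) (th1 h) (ev0 u) (ev0 v) (ev1 u) (ev1 v) e1 e2 (gs h u v) (gt h u v)
      (gs1 h u v) (gt1 h u v) (gS0 h e1 e2) (gT0 h e1 e2))
    (hB : CoefBd R2 (gP m h) (gV w0 h) (gw h) (gdel n h) (lam + aa m - (d : ℂ) / 4) C c0 ε1 η)
    (h1 : Rm ≤ R2) (h2 : R2 ≤ RM) (h3 : ε1 ≤ κ0) (h4 : η ≤ κ0) (h5 : q0 ≤ 2 * m + 1)
    (hE : η + 1 / (η * (2 * m + 1)) ≤ 1)
    (hεp : 0 ≤ εp) (hεp1 : εp ≤ 1) (hz : ‖1 - ep h R2‖ ≤ εp) (hψ : |th1 h R2| ≤ εp)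
    (hA : 0 < A) (ho : ∀ r ∈ Icc R2 b, ‖ev0 u r‖ ≤ A ∧ ‖ev0 v r‖ ≤ A)
    (ho1 : ‖ev1 u R2‖ ≤ A ∧ ‖ev1 v R2‖ ≤ A)
    (hS : ∫ r in (0 : ℝ)..R2, r ^ n * ‖gS0 h e1 e2 r‖ ^ 2 ≤ A ^ 2)
    (hT : ∫ r in (0 : ℝ)..R2, r ^ n * ‖gT0 h e1 e2 r‖ ^ 2 ≤ (ε1 * A) ^ 2) :
    nrm d b F G ≤ Real.sqrt (16 * M + 2 * b ^ (n + 1)) * A ∧
    ‖ev0 u R2 + ev0 v R2‖ ≤
      (4 * Real.sqrt (M * (ε1 + (η + 1 / (η * (2 * m + 1))))) + 4 * εp) * A ∧
    ‖ev1 u R2 - ev1 v R2‖ ≤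
      (4 * Real.sqrt (M * (ε1 + (η + 1 / (η * (2 * m + 1))))) + 4 * εp) * A ∧
    (∫ r in (0 : ℝ)..R2, r ^ n * ‖gs h u v r‖ ^ 2) ≤
      16 * A ^ 2 * (M * (η + 1 / (η * (2 * m + 1)))) ∧
    (∫ r in (0 : ℝ)..R2, r ^ n * ‖gt h u v r‖ ^ 2) ≤ 16 * A ^ 2 * M := by
  have hR := hO.sys.R2_pos
  have hη := hB.η_pos
  have hmem : R2 ∈ Icc R2 b := ⟨le_rfl, hRb⟩
  obtain ⟨hoF, hoG⟩ := ho R2 hmem
  obtain ⟨r1, r2, r3, r4⟩ := match_bound hI hO hB h1 h2 h3 h4 h5 hq0 hA hoF hoG ho1.1 ho1.2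
    (hψ.trans hεp1) hS hT
  obtain ⟨m1, m2⟩ := match_rel hO hoF hoG ho1.1 ho1.2 hz hψ hεp
  have hε0 := hB.ε1_nonneg
  set E : ℝ := η + 1 / (η * (2 * m + 1)) with hEdef
  have hE0 : 0 ≤ E := by rw [hEdef]; positivity
  have hn2 := nrm_sq_le (d := d) (b := b) hh hne hd hn hR hRb hu hv hF hG r3 r4 ho
  have hsq : ∀ {x y : ℝ}, 0 ≤ x → 0 ≤ y → x ^ 2 ≤ 16 * A ^ 2 * y → x ≤ 4 * Real.sqrt y * A := by
    intro x y hx hy hxy
    apply le_of_sq_le_sq _ (by positivity)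
    calc x ^ 2 ≤ 16 * A ^ 2 * y := hxy
      _ = (4 * Real.sqrt y * A) ^ 2 := by
        rw [mul_pow, mul_pow, Real.sq_sqrt hy]; ring
  refine ⟨?_, ?_, ?_, r3, r4⟩
  · apply le_of_sq_le_sq _ (by positivity)
    have hb : 0 ≤ b := hR.le.trans hRb
    rw [mul_pow, Real.sq_sqrt (by positivity)]
    refine hn2.trans ?_
    have k1 : 16 * A ^ 2 * (M * E) ≤ 16 * A ^ 2 * M := by
      apply mul_le_mul_of_nonneg_left _ (by positivity)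
      nlinarith
    nlinarith
  · have k1 : ‖gs h u v R2‖ ≤ 4 * Real.sqrt (M * (ε1 + E)) * A := by
      refine hsq (norm_nonneg _) (by positivity) (r1.trans ?_)
      apply mul_le_mul_of_nonneg_left _ (by positivity)
      apply mul_le_mul_of_nonneg_left _ hM.le
      linarith
    calc _ ≤ _ := m1
      _ ≤ _ := by nlinarith
  · have k1 : ‖gt1 h u v R2‖ ≤ 4 * Real.sqrt (M * (ε1 + E)) * A :=
      hsq (norm_nonneg _) (by positivity) r2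
    calc _ ≤ _ := m2
      _ ≤ _ := by nlinarith

end Vale.Agent.P139.H311
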