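import Vale.Agent.P139.BU.UP
import Vale.Agent.P139.KU.NonDeg

/-!
Block S2 (bounded spectral parameter): statements shared by the pieces.

`extF`, `extG` : exterior model of a radial pair (without the factor `r ^ l`), with a source term.
`Ext` : exterior description of radial pairs of a family of profiles.
-/

noncomputable section

open scoped ComplexConjugate ContDiff Topology
open Complex Filter Set MeasureTheory

namespace Vale.Agent.P139.H311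

open BU KU

/-- Exterior model, first component. -/
def extF (d l : ℕ) (w : ℝ) (x x0 α α0 c : ℂ) (r : ℝ) : ℂ :=
  α * F0 d l w x r + c * α0 * dslope (fun y => F0 d l w y r) x0 x

/-- Its radial derivative. -/
def extF' (d l : ℕ) (w : ℝ) (x x0 α α0 c : ℂ) (r : ℝ) : ℂ :=
  α * F0' d l w x r + c * α0 * dslope (fun y => F0' d l w y r) x0 x

/-- Exterior model, second component. -/
def extG (d l : ℕ) (w : ℝ) (x x0 β β0 c : ℂ) (r : ℝ) : ℂ :=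
  β * F0s d l w x r + c * β0 * dslope (fun y => F0s d l w y r) x0 x

/-- Its radial derivative. -/
def extG' (d l : ℕ) (w : ℝ) (x x0 β β0 c : ℂ) (r : ℝ) : ℂ :=
  β * F0s' d l w x r + c * β0 * dslope (fun y => F0s' d l w y r) x0 x

/-- `L²` size of a radial pair on `(0,b)`. -/
def nrm (d : ℕ) (b : ℝ) (F G : ℝ → ℂ) : ℝ :=
  Real.sqrt (∫ r in (0 : ℝ)..b, r ^ (d - 1) * (‖F r‖ ^ 2 + ‖G r‖ ^ 2))

/-- The pair `(F, G)` is `δ`-close in `C¹` to the exterior model on the set `s`. -/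
structure ExtClose (d l : ℕ) (w : ℝ) (x x0 α β α0 β0 c : ℂ) (F G : ℝ → ℂ) (s : Set ℝ)
    (δ : ℝ) : Prop where
  f0 : ∀ r ∈ s, ‖F r / (r : ℂ) ^ l - extF d l w x x0 α α0 c r‖ ≤ δ
  f1 : ∀ r ∈ s, ‖deriv (fun t : ℝ => F t / (t : ℂ) ^ l) r - extF' d l w x x0 α α0 c r‖ ≤ δ
  g0 : ∀ r ∈ s, ‖G r / (r : ℂ) ^ l - extG d l w x x0 β β0 c r‖ ≤ δ
  g1 : ∀ r ∈ s, ‖deriv (fun t : ℝ => G t / (t : ℂ) ^ l) r - extG' d l w x x0 β β0 c r‖ ≤ δ

/-- `(F,G)` solves the radial spectral problem with source `c (φ,γ)`. -/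
structure RSol (d m l : ℕ) (w : ℝ) (q : ℝ → ℂ) (lam c : ℂ) (F G φ γ : ℝ → ℂ) : Prop where
  e1 : ∀ r > 0, RL1 d m l w q F G r = lam * F r + c * φ r
  e2 : ∀ r > 0, RL2 d m l w q F G r = lam * G r + c * γ r

/-- Exterior description (E2 and E3 for bounded `lam`). -/
def Ext (d : ℕ) (K : ℕ → ℕ) (w R : ℕ → ℝ) (q : ℕ → ℝ → ℂ) (b : ℝ) : Prop :=
  ∀ (l : ℕ) (L0 η ε : ℝ), 0 < η → 0 < ε → ∃ m1 : ℕ, ∀ m, m1 ≤ m →
    ∀ lam lam0 : ℂ, 0 ≤ lam.re → 0 ≤ lam0.re → ‖lam‖ ≤ L0 → ‖lam0‖ ≤ L0 →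
    ∀ (F G φ γ : ℝ → ℂ) (c : ℂ), RadAdm (K m) F → RadAdm (K m) G → RadAdm (K m) φ →
    RadAdm (K m) γ → RSol d m l (w m) (q m) lam0 0 φ γ φ γ →
    RSol d m l (w m) (q m) lam c F G φ γ →
    ∃ α β α0 β0 : ℂ,
      ExtClose d l (w m) (lam0 + aa m) (lam0 + aa m) α0 β0 0 0 0 φ γ (Icc (R m + η) b)
        (ε * nrm d b φ γ) ∧
      ExtClose d l (w m) (lam + aa m) (lam0 + aa m) α β α0 β0 c F G (Icc (R m + η) b)
        (ε * (nrm d b F G + ‖c‖ * nrm d b φ γ))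

end Vale.Agent.P139.H311
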